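import Mathlib

open Matrix

namespace P002

variable {Γ : Type} [Group Γ]

/-- `W` is stable under all matrices `σ γ`. -/
def Invt {m : ℕ} (σ : Γ → Matrix (Fin m) (Fin m) ℂ) (W : Submodule ℂ (Fin m → ℂ)) : Prop :=
  ∀ γ, ∀ w ∈ W, (σ γ).mulVec w ∈ W

/-- Irreducibility of a family of matrices. -/
def Irred {m : ℕ} (σ : Γ → Matrix (Fin m) (Fin m) ℂ) : Prop :=
  0 < m ∧ ∀ W : Submodule ℂ (Fin m → ℂ), Invt σ W → W = ⊥ ∨ W = ⊤

/-- Semisimplicity of a family of matrices: every invariant subspace has an invariant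
complement. -/
def Semis {m : ℕ} (σ : Γ → Matrix (Fin m) (Fin m) ℂ) : Prop :=
  ∀ W : Submodule ℂ (Fin m → ℂ), Invt σ W →
    ∃ W' : Submodule ℂ (Fin m → ℂ), Invt σ W' ∧ IsCompl W W'

/-- Block diagonal matrix, indexed by `Fin r` through `ε`. -/
noncomputable def blk {r n : ℕ} {m : Fin n → ℕ} (ε : (Σ j, Fin (m j)) ≃ Fin r)
    (A : ∀ j, Matrix (Fin (m j)) (Fin (m j)) ℂ) : Matrix (Fin r) (Fin r) ℂ :=
  Matrix.reindex ε ε (Matrix.blockDiagonal' A)

/-- The algebra of polynomial functions on a finite product of groups `SL_{m i}(ℂ)`. -/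
noncomputable def polyAlg {ι : Type} (m : ι → ℕ) :
    Subalgebra ℂ ((∀ i, SpecialLinearGroup (Fin (m i)) ℂ) → ℂ) :=
  Algebra.adjoin ℂ (Set.range (fun (x : Σ i, Fin (m i) × Fin (m i)) =>
    fun (h : ∀ i, SpecialLinearGroup (Fin (m i)) ℂ) =>
      (h x.1 : Matrix (Fin (m x.1)) (Fin (m x.1)) ℂ) x.2.1 x.2.2))

end P002
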