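import Mathlib
import Vale.Agent.Lib.P002.Defs

open Matrix

namespace P002

variable {Γ : Type} [Group Γ]

/-- a subspace stable under the group elements is a submodule over the group algebra -/
private theorem blk_sub {M' : Type} [AddCommGroup M'] [Module ℂ M'] [Module (MonoidAlgebra ℂ Γ) M']
    [IsScalarTower ℂ (MonoidAlgebra ℂ Γ) M'] (N : Submodule ℂ M')
    (h : ∀ γ : Γ, ∀ v ∈ N, MonoidAlgebra.of ℂ Γ γ • v ∈ N) :
    ∃ N' : Submodule (MonoidAlgebra ℂ Γ) M', ∀ v, v ∈ N' ↔ v ∈ N := by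
  refine ⟨{ carrier := N, add_mem' := fun ha hb => N.add_mem ha hb, zero_mem' := N.zero_mem,
            smul_mem' := ?_ }, fun v => Iff.rfl⟩
  intro c v hv
  induction c using MonoidAlgebra.induction_on with
  | of g => exact h g v hv
  | add f g hf hg =>
    rw [add_smul]
    exact N.add_mem hf hg
  | smul z f hf =>
    rw [smul_assoc]
    exact N.smul_mem z hf

/-- semisimplicity in terms of invariant subspaces -/
private theorem blk_ss {V : Type} [AddCommGroup V] [Module ℂ V] [Module (MonoidAlgebra ℂ Γ) V]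
    [IsScalarTower ℂ (MonoidAlgebra ℂ Γ) V]
    (h : ∀ W : Submodule ℂ V, (∀ γ : Γ, ∀ v ∈ W, MonoidAlgebra.of ℂ Γ γ • v ∈ W) →
      ∃ W' : Submodule ℂ V, (∀ γ : Γ, ∀ v ∈ W', MonoidAlgebra.of ℂ Γ γ • v ∈ W') ∧
        IsCompl W W') : IsSemisimpleModule (MonoidAlgebra ℂ Γ) V := by
  have hc : ComplementedLattice (Submodule (MonoidAlgebra ℂ Γ) V) := by
    refine ⟨fun S => ?_⟩
    obtain ⟨W', hW', hc⟩ := h (S.restrictScalars ℂ) fun γ v hv => S.smul_mem _ hv
    obtain ⟨S', hS'⟩ := blk_sub W' hW'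
    refine ⟨S', ?_, ?_⟩
    · rw [disjoint_iff, Submodule.eq_bot_iff]
      intro x hx
      have h1 : x ∈ (S.restrictScalars ℂ) ⊓ W' := ⟨hx.1, (hS' x).1 hx.2⟩
      rwa [hc.disjoint.eq_bot, Submodule.mem_bot] at h1
    · rw [codisjoint_iff, Submodule.eq_top_iff']
      intro x
      have h1 : x ∈ (S.restrictScalars ℂ) ⊔ W' := by
        rw [hc.codisjoint.eq_top]
        exact Submodule.mem_top
      obtain ⟨a, ha, b, hb, hab⟩ := Submodule.mem_sup.1 h1
      exact Submodule.mem_sup.2 ⟨a, ha, b, (hS' _).2 hb, hab⟩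
  exact ⟨⟩

/-- matrices of the action in a basis -/
private noncomputable def blkτ {V : Type} [AddCommGroup V] [Module ℂ V]
    [Module (MonoidAlgebra ℂ Γ) V] [IsScalarTower ℂ (MonoidAlgebra ℂ Γ) V] {m : ℕ}
    (b : Module.Basis (Fin m) ℂ V) : Γ →* Matrix (Fin m) (Fin m) ℂ where
  toFun γ := LinearMap.toMatrixAlgEquiv b (Algebra.lsmul ℂ ℂ V (MonoidAlgebra.of ℂ Γ γ))
  map_one' := by rw [map_one, map_one, map_one]
  map_mul' x y := by rw [map_mul, map_mul, map_mul]

private theorem blk_irred {V : Type} [AddCommGroup V] [Module ℂ V]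
    [Module (MonoidAlgebra ℂ Γ) V] [IsScalarTower ℂ (MonoidAlgebra ℂ Γ) V]
    [IsSimpleModule (MonoidAlgebra ℂ Γ) V] {m : ℕ} (b : Module.Basis (Fin m) ℂ V) :
    Irred (blkτ (Γ := Γ) b) := by
  have hnt : Nontrivial V := IsSimpleModule.nontrivial (MonoidAlgebra ℂ Γ) V
  refine ⟨?_, fun W hW => ?_⟩
  · rcases Nat.eq_zero_or_pos m with rfl | h
    · exfalso
      have : Subsingleton V := b.equivFun.toEquiv.subsingleton
      exact not_subsingleton V this
    · exact h
  · set N : Submodule ℂ V := W.comap b.equivFun.toLinearMap with hN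
    have hact : ∀ (γ : Γ) (v : V), b.equivFun (MonoidAlgebra.of ℂ Γ γ • v) =
        (blkτ (Γ := Γ) b γ).mulVec (b.equivFun v) := by
      intro γ v
      have h := LinearMap.toMatrix_mulVec_repr b b
        (Algebra.lsmul ℂ ℂ V (MonoidAlgebra.of ℂ Γ γ) : V →ₗ[ℂ] V) v
      exact h.symm
    obtain ⟨N', hN'⟩ := blk_sub (Γ := Γ) N (fun γ v hv => by
      rw [hN, Submodule.mem_comap, LinearEquiv.coe_coe] at hv ⊢
      rw [hact]
      exact hW γ _ hv)
    rcases eq_bot_or_eq_top N' with h | h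
    · left
      rw [Submodule.eq_bot_iff]
      intro w hw
      have h1 : b.equivFun.symm w ∈ N' := by
        rw [hN', hN, Submodule.mem_comap, LinearEquiv.coe_coe, LinearEquiv.apply_symm_apply]
        exact hw
      rw [h, Submodule.mem_bot] at h1
      exact (LinearEquiv.map_eq_zero_iff _).1 h1
    · right
      rw [Submodule.eq_top_iff']
      intro w
      have h1 : b.equivFun.symm w ∈ N' := by
        rw [h]
        exact Submodule.mem_top
      rw [hN', hN, Submodule.mem_comap, LinearEquiv.coe_coe, LinearEquiv.apply_symm_apply] at h1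
      exact h1

private theorem blk_main {V : Type} [AddCommGroup V] [Module ℂ V] [Module.Finite ℂ V]
    [Module (MonoidAlgebra ℂ Γ) V] [IsScalarTower ℂ (MonoidAlgebra ℂ Γ) V]
    [IsSemisimpleModule (MonoidAlgebra ℂ Γ) V] :
    ∃ (n : ℕ) (m : Fin n → ℕ) (B : Module.Basis (Σ j, Fin (m j)) ℂ V)
      (τ : ∀ j, Γ →* Matrix (Fin (m j)) (Fin (m j)) ℂ), (∀ j, Irred (τ j)) ∧
      ∀ γ, LinearMap.toMatrix B B (Algebra.lsmul ℂ ℂ V (MonoidAlgebra.of ℂ Γ γ)) =
        Matrix.blockDiagonal' (fun j => τ j γ) := by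
  have hfin : Module.Finite (MonoidAlgebra ℂ Γ) V :=
    Module.Finite.of_restrictScalars_finite ℂ (MonoidAlgebra ℂ Γ) V
  obtain ⟨n, S, E, hS⟩ := IsSemisimpleModule.exists_linearEquiv_fin_dfinsupp
    (MonoidAlgebra ℂ Γ) V
  have hfinS : ∀ j, Module.Finite ℂ (S j) := fun j =>
    Module.Finite.of_injective ((S j).subtype.restrictScalars ℂ) (S j).injective_subtype
  let m : Fin n → ℕ := fun j => Module.finrank ℂ (S j)
  let b : ∀ j, Module.Basis (Fin (m j)) ℂ (S j) := fun j => Module.finBasis ℂ (S j)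
  let B0 : Module.Basis (Σ j, Fin (m j)) ℂ (Π₀ j, S j) := DFinsupp.basis b
  let B : Module.Basis (Σ j, Fin (m j)) ℂ V := B0.map (E.restrictScalars ℂ).symm
  refine ⟨n, m, B, fun j => blkτ (b j), fun j => ?_, fun γ => ?_⟩
  · have := hS j
    exact blk_irred (b j)
  · ext ⟨i, x⟩ ⟨j, y⟩
    rw [LinearMap.toMatrix_apply, Matrix.blockDiagonal'_apply]
    have hrep : ∀ (w : Π₀ j, S j) (i : Fin n) (x : Fin (m i)),
        B0.repr w ⟨i, x⟩ = (b i).repr (w i) x := fun w i x => rfl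
    have hB0 : B0 ⟨j, y⟩ = DFinsupp.single j (b j y) := by
      apply B0.repr.injective
      rw [B0.repr_self]
      ext ⟨i, x⟩
      rw [hrep]
      by_cases h : j = i
      · subst h
        rw [DFinsupp.single_eq_same, (b j).repr_self]
        by_cases hxy : y = x
        · subst hxy
          rw [Finsupp.single_eq_same, Finsupp.single_eq_same]
        · rw [Finsupp.single_eq_of_ne (fun h => hxy h.symm),
            Finsupp.single_eq_of_ne fun h => hxy (by simpa using h.symm)]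
      · rw [DFinsupp.single_eq_of_ne (fun h' => h h'.symm), map_zero, Finsupp.zero_apply,
          Finsupp.single_eq_of_ne fun h' => h (congrArg Sigma.fst h').symm]
    have hB1 : B ⟨j, y⟩ = E.symm (DFinsupp.single j (b j y)) := by
      rw [← hB0]
      rfl
    have hB2 : ∀ v : V, B.repr v = B0.repr (E v) := fun v => rfl
    have h1 : E (Algebra.lsmul ℂ ℂ V (MonoidAlgebra.of ℂ Γ γ) (B ⟨j, y⟩)) =
        MonoidAlgebra.of ℂ Γ γ • (DFinsupp.single j (b j y) : Π₀ j, S j) := by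
      rw [hB1, Algebra.lsmul_coe, map_smul, LinearEquiv.apply_symm_apply]
    rw [hB2, h1, hrep, DFinsupp.smul_apply]
    by_cases h : i = j
    · subst h
      rw [DFinsupp.single_eq_same, dif_pos rfl]
      show _ = LinearMap.toMatrixAlgEquiv (b i) _ x y
      rw [LinearMap.toMatrixAlgEquiv_apply]
      rfl
    · rw [DFinsupp.single_eq_of_ne h, smul_zero, map_zero, dif_neg h]
      rfl

/-- A semisimple representation is conjugate to a direct sum of irreducible ones. (Use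
`Representation.asModule`, `IsSemisimpleModule.exists_linearEquiv_fin_dfinsupp` and
`DFinsupp.basis`, or an induction on `r`.) -/
theorem exists_blocks {r : ℕ} (σ : Γ →* Matrix (Fin r) (Fin r) ℂ) (hσ : Semis σ) :
    ∃ (n : ℕ) (m : Fin n → ℕ) (ε : (Σ j, Fin (m j)) ≃ Fin r)
      (P Q : Matrix (Fin r) (Fin r) ℂ)
      (τ : ∀ j, Γ →* Matrix (Fin (m j)) (Fin (m j)) ℂ),
      P * Q = 1 ∧ (∀ j, Irred (τ j)) ∧ ∀ γ, σ γ = P * blk ε (fun j => τ j γ) * Q := by
  let ρ : Γ →* Module.End ℂ (Fin r → ℂ) :=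
    { toFun := fun γ => Matrix.toLin' (σ γ)
      map_one' := by rw [map_one, Matrix.toLin'_one]; rfl
      map_mul' := fun a b => by rw [map_mul, Matrix.toLin'_mul]; rfl }
  let A : MonoidAlgebra ℂ Γ →ₐ[ℂ] Module.End ℂ (Fin r → ℂ) := MonoidAlgebra.lift ℂ _ Γ ρ
  let _ : Module (MonoidAlgebra ℂ Γ) (Fin r → ℂ) := Module.compHom (Fin r → ℂ) A.toRingHom
  have hsm : ∀ (a : MonoidAlgebra ℂ Γ) (v : Fin r → ℂ), a • v = A a v := fun a v => rfl
  have : IsScalarTower ℂ (MonoidAlgebra ℂ Γ) (Fin r → ℂ) :=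
    ⟨fun z a v => by rw [hsm, hsm, map_smul]; rfl⟩
  have hact : ∀ (γ : Γ) (v : Fin r → ℂ), MonoidAlgebra.of ℂ Γ γ • v = (σ γ).mulVec v := by
    intro γ v
    have h1 : A (MonoidAlgebra.of ℂ Γ γ) = ρ γ := MonoidAlgebra.lift_of ρ γ
    rw [hsm, h1]
    exact Matrix.toLin'_apply (σ γ) v
  have : IsSemisimpleModule (MonoidAlgebra ℂ Γ) (Fin r → ℂ) := blk_ss fun W hW => by
    obtain ⟨W', h1, h2⟩ := hσ W fun γ w hw => by
      rw [← hact]
      exact hW γ w hw
    exact ⟨W', fun γ w hw => by rw [hact]; exact h1 γ w hw, h2⟩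
  obtain ⟨n, m, B, τ, hirr, hB⟩ := blk_main (Γ := Γ) (V := Fin r → ℂ)
  set ε : (Σ j, Fin (m j)) ≃ Fin r := B.indexEquiv (Pi.basisFun ℂ (Fin r)) with hε
  refine ⟨n, m, ε, (Pi.basisFun ℂ (Fin r)).toMatrix (B.reindex ε),
    (B.reindex ε).toMatrix (Pi.basisFun ℂ (Fin r)), τ, ?_, hirr, fun γ => ?_⟩
  · exact Module.Basis.toMatrix_mul_toMatrix_flip _ _
  · have h1 : blk ε (fun j => τ j γ) = LinearMap.toMatrix (B.reindex ε) (B.reindex ε)
        (Algebra.lsmul ℂ ℂ (Fin r → ℂ) (MonoidAlgebra.of ℂ Γ γ)) := by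
      unfold blk
      rw [← hB γ]
      ext i j
      rw [Matrix.reindex_apply, Matrix.submatrix_apply, LinearMap.toMatrix_apply,
        LinearMap.toMatrix_apply]
      simp
    rw [h1, basis_toMatrix_mul_linearMap_toMatrix_mul_basis_toMatrix]
    ext i j
    have h2 : Algebra.lsmul ℂ ℂ (Fin r → ℂ) (MonoidAlgebra.of ℂ Γ γ)
        (Pi.basisFun ℂ (Fin r) j) = (σ γ).mulVec (Pi.single j 1) := by
      rw [Pi.basisFun_apply]
      exact hact γ _
    rw [LinearMap.toMatrix_apply, h2, Pi.basisFun_repr, Matrix.mulVec_single_one]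
    rfl

end P002
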