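import Mathlib
import Vale.Agent.Lib.P002.Defs

open Matrix

namespace P002

variable {Γ : Type} [Group Γ]

/-- a linear map commuting with an irreducible family is a scalar -/
private theorem Bur_scalar {m : ℕ} (τ : Γ → Matrix (Fin m) (Fin m) ℂ) (hτ : Irred τ)
    (φ : (Fin m → ℂ) →ₗ[ℂ] (Fin m → ℂ))
    (hφ : ∀ γ v, φ ((τ γ).mulVec v) = (τ γ).mulVec (φ v)) : ∃ c : ℂ, ∀ v, φ v = c • v := by
  have : Nonempty (Fin m) := ⟨⟨0, hτ.1⟩⟩
  obtain ⟨c, hc⟩ := Module.End.exists_eigenvalue φ
  refine ⟨c, ?_⟩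
  have hinv : Invt τ (Module.End.eigenspace φ c) := by
    intro γ w hw
    rw [Module.End.mem_eigenspace_iff] at hw ⊢
    rw [hφ, hw, Matrix.mulVec_smul]
  rcases hτ.2 _ hinv with h | h
  · exact absurd h hc
  · intro v
    have hv : v ∈ Module.End.eigenspace φ c := by
      rw [h]
      exact Submodule.mem_top
    exact Module.End.mem_eigenspace_iff.1 hv

/-- Schur's lemma. -/
theorem schur {m : ℕ} (τ : Γ →* Matrix (Fin m) (Fin m) ℂ) (hτ : Irred τ) (z : Γ)
    (hz : ∀ γ, z * γ = γ * z) : ∃ c : ℂ, τ z = c • (1 : Matrix (Fin m) (Fin m) ℂ) := by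
  obtain ⟨c, hc⟩ := Bur_scalar τ hτ (Matrix.toLin' (τ z)) (fun γ v => by
    rw [Matrix.toLin'_apply, Matrix.toLin'_apply, Matrix.mulVec_mulVec, Matrix.mulVec_mulVec,
      ← map_mul, ← map_mul, hz])
  refine ⟨c, ?_⟩
  apply Matrix.toLin'.injective
  ext v
  simp [Matrix.toLin'_apply] at hc
  simp [hc]

/-- the algebra generated by the matrices, acting on `ℂ^m` -/
private noncomputable abbrev BurR {m : ℕ} (τ : Γ →* Matrix (Fin m) (Fin m) ℂ) :
    Subalgebra ℂ (Module.End ℂ (Fin m → ℂ)) :=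
  Algebra.adjoin ℂ (Set.range fun γ => Matrix.toLin' (τ γ))

private theorem Bur_mem {m : ℕ} (τ : Γ →* Matrix (Fin m) (Fin m) ℂ) (γ : Γ) :
    Matrix.toLin' (τ γ) ∈ BurR τ := Algebra.subset_adjoin ⟨γ, rfl⟩

private theorem Bur_simple {m : ℕ} (τ : Γ →* Matrix (Fin m) (Fin m) ℂ) (hτ : Irred τ) :
    IsSimpleModule (BurR τ) (Fin m → ℂ) := by
  have : Nonempty (Fin m) := ⟨⟨0, hτ.1⟩⟩
  have : Nontrivial (Submodule (BurR τ) (Fin m → ℂ)) := inferInstance
  rw [isSimpleModule_iff]
  refine ⟨fun W => ?_⟩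
  let W' : Submodule ℂ (Fin m → ℂ) :=
    { carrier := W
      add_mem' := fun ha hb => W.add_mem ha hb
      zero_mem' := W.zero_mem
      smul_mem' := fun c x hx => by
        have h := W.smul_mem (algebraMap ℂ (BurR τ) c) hx
        exact h }
  have hinv : Invt τ W' := by
    intro γ w hw
    have h := W.smul_mem (⟨_, Bur_mem τ γ⟩ : BurR τ) hw
    exact h
  rcases hτ.2 W' hinv with h | h
  · left
    ext x
    have h2 : x ∈ W' ↔ x ∈ (⊥ : Submodule ℂ (Fin m → ℂ)) := by rw [h]
    exact h2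
  · right
    ext x
    have h2 : x ∈ W' ↔ x ∈ (⊤ : Submodule ℂ (Fin m → ℂ)) := by rw [h]
    exact h2

private theorem Bur_top {m : ℕ} (τ : Γ →* Matrix (Fin m) (Fin m) ℂ) (hτ : Irred τ)
    (f : Module.End ℂ (Fin m → ℂ)) : f ∈ BurR τ := by
  have := Bur_simple τ hτ
  have hs : ∀ φ : Module.End (BurR τ) (Fin m → ℂ), ∃ c : ℂ, ∀ v, φ v = c • v := by
    intro φ
    let φ' : (Fin m → ℂ) →ₗ[ℂ] (Fin m → ℂ) :=
      { toFun := φ
        map_add' := φ.map_add
        map_smul' := fun c x => φ.map_smul (algebraMap ℂ (BurR τ) c) x }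
    exact Bur_scalar τ hτ φ' (fun γ v => φ.map_smul (⟨_, Bur_mem τ γ⟩ : BurR τ) v)
  let F : Module.End (Module.End (BurR τ) (Fin m → ℂ)) (Fin m → ℂ) :=
    { toFun := f
      map_add' := f.map_add
      map_smul' := fun φ v => by
        obtain ⟨c, hc⟩ := hs φ
        change f (φ v) = φ (f v)
        rw [hc, hc, f.map_smul] }
  obtain ⟨r, hr⟩ := jacobson_density (R := BurR τ) (M := Fin m → ℂ) F
    (Finset.univ.image fun i : Fin m => Pi.single i (1 : ℂ))
  have h : f = (r : Module.End ℂ (Fin m → ℂ)) := by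
    apply (Pi.basisFun ℂ (Fin m)).ext
    intro i
    rw [Pi.basisFun_apply]
    exact hr _ (Finset.mem_image_of_mem _ (Finset.mem_univ i))
  rw [h]
  exact r.2

private theorem Bur_span {m : ℕ} (τ : Γ →* Matrix (Fin m) (Fin m) ℂ) (hτ : Irred τ)
    (f : Module.End ℂ (Fin m → ℂ)) :
    f ∈ Submodule.span ℂ (Set.range fun γ => Matrix.toLin' (τ γ)) := by
  have h1 := Bur_top τ hτ f
  rw [← Subalgebra.mem_toSubmodule, Algebra.adjoin_eq_span] at h1
  let g : Γ →* Module.End ℂ (Fin m → ℂ) :=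
    { toFun := fun γ => Matrix.toLin' (τ γ)
      map_one' := by
        rw [map_one, Matrix.toLin'_one]
        rfl
      map_mul' := fun x y => by
        rw [map_mul, Matrix.toLin'_mul]
        rfl }
  have h2 : (Submonoid.closure (Set.range fun γ => Matrix.toLin' (τ γ)) :
      Set (Module.End ℂ (Fin m → ℂ))) = Set.range fun γ => Matrix.toLin' (τ γ) := by
    have h3 : (Set.range fun γ => Matrix.toLin' (τ γ)) = (MonoidHom.mrange g : Set _) := rfl
    rw [h3, Submonoid.closure_eq]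
  rwa [h2] at h1

private theorem Bur_vec {m : ℕ} (τ : Γ →* Matrix (Fin m) (Fin m) ℂ) (hτ : Irred τ) :
    Submodule.span ℂ (Set.range fun γ => fun y : Fin m × Fin m => τ γ y.1 y.2) = ⊤ := by
  rw [eq_top_iff]
  intro u _
  have h1 : ∀ f ∈ Submodule.span ℂ (Set.range fun γ => Matrix.toLin' (τ γ)),
      (fun y : Fin m × Fin m => LinearMap.toMatrix' f y.1 y.2) ∈
        Submodule.span ℂ (Set.range fun γ => fun y : Fin m × Fin m => τ γ y.1 y.2) := by
    intro f hf
    induction hf using Submodule.span_induction with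
    | mem x hx =>
      obtain ⟨γ, rfl⟩ := hx
      refine Submodule.subset_span ⟨γ, ?_⟩
      funext y
      simp
    | zero =>
      have : (fun y : Fin m × Fin m => LinearMap.toMatrix' (0 : (Fin m → ℂ) →ₗ[ℂ] (Fin m → ℂ)) y.1 y.2)
          = 0 := by
        funext y
        simp
      rw [this]
      exact Submodule.zero_mem _
    | add x y _ _ hx hy =>
      have := Submodule.add_mem _ hx hy
      refine (Eq.subst (motive := fun z => z ∈ _) ?_ this)
      funext z
      simp
    | smul c x _ hx =>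
      have := Submodule.smul_mem _ c hx
      refine (Eq.subst (motive := fun z => z ∈ _) ?_ this)
      funext z
      simp
  have h2 := h1 _ (Bur_span τ hτ (Matrix.toLin' (Matrix.of fun i j => u (i, j))))
  have h3 : (fun y : Fin m × Fin m => LinearMap.toMatrix'
      (Matrix.toLin' (Matrix.of fun i j => u (i, j))) y.1 y.2) = u := by
    funext y
    simp
  rwa [h3] at h2

/-- Burnside's theorem. -/
theorem burnside {m : ℕ} (τ : Γ →* Matrix (Fin m) (Fin m) ℂ) (hτ : Irred τ) :
    ∃ a : Fin m × Fin m → Γ,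
      (Matrix.of (fun (x y : Fin m × Fin m) => τ (a x) y.1 y.2)).det ≠ 0 := by
  obtain ⟨f, hf, -, hli⟩ := Submodule.exists_fun_fin_finrank_span_eq ℂ
    (Set.range fun γ => fun y : Fin m × Fin m => τ γ y.1 y.2)
  have hcard : Fintype.card (Fin m × Fin m) = Fintype.card (Fin (Module.finrank ℂ
      (Submodule.span ℂ (Set.range fun γ => fun y : Fin m × Fin m => τ γ y.1 y.2)))) := by
    rw [Fintype.card_fin, Bur_vec τ hτ, finrank_top, Module.finrank_fintype_fun_eq_card]
  let e := Fintype.equivOfCardEq hcard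
  choose b hb using hf
  refine ⟨fun x => b (e x), ?_⟩
  have h2 : LinearIndependent ℂ
      (Matrix.of (fun (x y : Fin m × Fin m) => τ (b (e x)) y.1 y.2)).row := by
    have h3 := hli.comp e e.injective
    have h4 : (Matrix.of (fun (x y : Fin m × Fin m) => τ (b (e x)) y.1 y.2)).row = f ∘ e := by
      funext x
      exact hb (e x)
    rw [h4]
    exact h3
  rw [Matrix.linearIndependent_rows_iff_isUnit, Matrix.isUnit_iff_isUnit_det,
    isUnit_iff_ne_zero] at h2
  exact h2

/-- The easy converse of Burnside's theorem. -/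
theorem irred_of_det {m : ℕ} (hm : 0 < m) (τ : Γ → Matrix (Fin m) (Fin m) ℂ)
    (a : Fin m × Fin m → Γ)
    (ha : (Matrix.of (fun (x y : Fin m × Fin m) => τ (a x) y.1 y.2)).det ≠ 0) :
    Irred τ := by
  refine ⟨hm, fun W hW => ?_⟩
  by_cases hbot : W = ⊥
  · exact Or.inl hbot
  right
  obtain ⟨w, hwW, hw0⟩ := Submodule.exists_mem_ne_zero_of_ne_bot hbot
  obtain ⟨j, hj⟩ : ∃ j, w j ≠ 0 := by
    by_contra hcon
    push Not at hcon
    exact hw0 (funext hcon)
  obtain ⟨A, hA⟩ : ∃ A, A = Matrix.of (fun (x y : Fin m × Fin m) => τ (a x) y.1 y.2) := ⟨_, rfl⟩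
  rw [← hA] at ha
  have hu : IsUnit A.det := isUnit_iff_ne_zero.2 ha
  have hE : ∀ i : Fin m, (Pi.single i (w j) : Fin m → ℂ) ∈ W := by
    intro i
    obtain ⟨c, hc⟩ : ∃ c : Fin m × Fin m → ℂ, c ᵥ* A = Pi.single (i, j) 1 := by
      refine ⟨(Pi.single (i, j) 1) ᵥ* A⁻¹, ?_⟩
      rw [Matrix.vecMul_vecMul, Matrix.nonsing_inv_mul A hu, Matrix.vecMul_one]
    have h1 : ∑ x, c x • (τ (a x)).mulVec w ∈ W :=
      Submodule.sum_mem _ fun x _ => Submodule.smul_mem _ _ (hW (a x) w hwW)
    have h2 : ∑ x, c x • (τ (a x)).mulVec w = Pi.single i (w j) := by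
      funext k
      have h3 : ∀ l, ∑ x, c x * τ (a x) k l = (Pi.single (i, j) 1 : Fin m × Fin m → ℂ) (k, l) := by
        intro l
        rw [← hc, hA]
        rfl
      have h4 : (∑ x, c x • (τ (a x)).mulVec w) k = ∑ l, (∑ x, c x * τ (a x) k l) * w l := by
        rw [Finset.sum_apply]
        simp only [Pi.smul_apply, smul_eq_mul, Matrix.mulVec, dotProduct, Finset.mul_sum,
          Finset.sum_mul]
        rw [Finset.sum_comm]
        refine Finset.sum_congr rfl fun l _ => Finset.sum_congr rfl fun x _ => ?_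
        ring
      rw [h4]
      simp only [h3]
      by_cases hk : k = i
      · subst hk
        rw [Pi.single_eq_same, Finset.sum_eq_single j]
        · rw [Pi.single_eq_same, one_mul]
        · intro l _ hl
          rw [Pi.single_eq_of_ne, zero_mul]
          intro h
          exact hl (Prod.mk.inj h).2
        · intro h
          exact absurd (Finset.mem_univ j) h
      · rw [Pi.single_eq_of_ne hk]
        refine Finset.sum_eq_zero fun l _ => ?_
        rw [Pi.single_eq_of_ne, zero_mul]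
        intro h
        exact hk (Prod.mk.inj h).1
    rwa [h2] at h1
  rw [eq_top_iff]
  intro v _
  have h5 : v = ∑ i, (v i / w j) • (Pi.single i (w j) : Fin m → ℂ) := by
    funext k
    rw [Finset.sum_apply, Finset.sum_eq_single k]
    · rw [Pi.smul_apply, Pi.single_eq_same, smul_eq_mul, div_mul_cancel₀ _ hj]
    · intro l _ hl
      rw [Pi.smul_apply, Pi.single_eq_of_ne (Ne.symm hl), smul_zero]
    · intro h
      exact absurd (Finset.mem_univ k) h
  rw [h5]
  exact Submodule.sum_mem _ fun i _ => Submodule.smul_mem _ _ (hE i)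

end P002
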