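import Mathlib
import Vale.Agent.Lib.P002.Defs

namespace P002

/-- retraction onto the torsion coset, and separation of the points -/
private theorem Ch_struct {B : Type} [CommGroup B] [Group.FG B] (N : Subgroup B) :
    ∃ (t : ℕ) (ρ : B →* B), 0 < t ∧ (∀ b, ρ b ^ t ∈ N) ∧ (∀ b ∈ N, ρ b = b) ∧
      ∀ U : Subgroup ℂˣ, (∀ x : ℂˣ, x ^ t = 1 → x ∈ U) →
        (∃ u ∈ U, ∀ k : ℕ, 0 < k → u ^ k ≠ 1) →
        ∀ a : B ⧸ N, a ≠ 1 → ∃ φ : (B ⧸ N) →* U, φ a ≠ 1 := by
  classical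
  obtain ⟨ι, κ, hι, hκ, p, hp, ee, ⟨E⟩⟩ :=
    CommGroup.equiv_free_prod_prod_multiplicative_zmod (B ⧸ N)
  have : ∀ i, NeZero (p i ^ ee i) := fun i => ⟨pow_ne_zero _ (hp i).ne_zero⟩
  have : ∀ i, Finite (Multiplicative (ZMod (p i ^ ee i))) := fun i =>
    inferInstanceAs (Finite (ZMod (p i ^ ee i)))
  obtain ⟨t, ht⟩ : ∃ t : ℕ, t = Nat.card ((i : ι) → Multiplicative (ZMod (p i ^ ee i))) :=
    ⟨_, rfl⟩
  have ht0 : 0 < t := by
    rw [ht]
    exact Nat.card_pos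
  -- the free part
  obtain ⟨lam, hlam⟩ : ∃ lam : B →* (κ → Multiplicative ℤ),
      ∀ b, lam b = (E (QuotientGroup.mk b)).1 :=
    ⟨(MonoidHom.fst _ _).comp (E.toMonoidHom.comp (QuotientGroup.mk' N)), fun b => rfl⟩
  have hb : ∀ i : κ, ∃ b : B, lam b = Pi.mulSingle i (Multiplicative.ofAdd 1) := by
    intro i
    obtain ⟨b, hb⟩ := QuotientGroup.mk_surjective
      (E.symm (Pi.mulSingle i (Multiplicative.ofAdd 1), 1))
    refine ⟨b, ?_⟩
    rw [hlam, hb, MulEquiv.apply_symm_apply]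
  choose bb hbb using hb
  obtain ⟨g, hg⟩ : ∃ g : (κ → Multiplicative ℤ) →* B,
      ∀ z, g z = ∏ i, bb i ^ (Multiplicative.toAdd (z i)) := by
    refine ⟨∏ i, (zpowersHom B (bb i)).comp
      (Pi.evalMonoidHom (fun _ : κ => Multiplicative ℤ) i), fun z => ?_⟩
    rw [MonoidHom.finsetProd_apply]
    rfl
  have hlg : ∀ z, lam (g z) = z := by
    intro z
    rw [hg, map_prod]
    funext j
    rw [Finset.prod_apply, Finset.prod_eq_single j]
    · rw [map_zpow, hbb, Pi.pow_apply, Pi.mulSingle_eq_same, ← ofAdd_zsmul, smul_eq_mul, mul_one,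
        ofAdd_toAdd]
    · intro i _ hij
      rw [map_zpow, hbb, Pi.pow_apply, Pi.mulSingle_eq_of_ne hij.symm, one_zpow]
    · intro h
      exact absurd (Finset.mem_univ j) h
  refine ⟨t, MonoidHom.id B / g.comp lam, ht0, ?_, ?_, ?_⟩
  · intro b
    have h1 : lam ((MonoidHom.id B / g.comp lam) b) = 1 := by
      rw [MonoidHom.div_apply, map_div, MonoidHom.comp_apply, hlg, MonoidHom.id_apply, div_self']
    rw [← QuotientGroup.eq_one_iff]
    refine E.injective ?_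
    rw [map_one, QuotientGroup.mk_pow, map_pow]
    refine Prod.ext ?_ ?_
    · rw [Prod.pow_fst, ← hlam, h1, one_pow]
      rfl
    · rw [Prod.pow_snd, ht, pow_card_eq_one']
      rfl
  · intro b hb
    have h1 : lam b = 1 := by
      rw [hlam, (QuotientGroup.eq_one_iff b).2 hb, map_one]
      rfl
    rw [MonoidHom.div_apply, MonoidHom.comp_apply, h1, map_one, MonoidHom.id_apply, div_one]
  · rintro U hU ⟨u, huU, hu⟩ a ha
    by_cases h1 : (E a).1 = 1
    · have h2 : (E a).2 ≠ 1 := by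
        intro h2
        refine ha (E.injective ?_)
        rw [map_one]
        exact Prod.ext h1 h2
      obtain ⟨χ, hχ⟩ := CommGroup.exists_apply_ne_one_of_hasEnoughRootsOfUnity
        ((i : ι) → Multiplicative (ZMod (p i ^ ee i))) ℂ h2
      have hχU : ∀ x, χ x ∈ U := by
        intro x
        refine hU _ ?_
        rw [← map_pow, ht, pow_card_eq_one', map_one]
      refine ⟨(χ.codRestrict U hχU).comp ((MonoidHom.snd _ _).comp E.toMonoidHom), ?_⟩
      intro h3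
      exact hχ (congrArg Subtype.val h3)
    · have h2 : ∃ i, (E a).1 i ≠ 1 := by
        by_contra hc
        push Not at hc
        exact h1 (funext hc)
      obtain ⟨i, hi⟩ := h2
      refine ⟨(zpowersHom U ⟨u, huU⟩).comp ((Pi.evalMonoidHom
        (fun _ : κ => Multiplicative ℤ) i).comp
        ((MonoidHom.fst _ _).comp E.toMonoidHom)), ?_⟩
      intro h3
      have h4 : u ^ (Multiplicative.toAdd ((E a).1 i)) = 1 := congrArg Subtype.val h3
      have h5 : Multiplicative.toAdd ((E a).1 i) ≠ 0 := fun h => hi h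
      rcases Int.natAbs_eq (Multiplicative.toAdd ((E a).1 i)) with h6 | h6
      · rw [h6, zpow_natCast] at h4
        exact hu _ (Int.natAbs_pos.2 h5) h4
      · rw [h6, zpow_neg, inv_eq_one, zpow_natCast] at h4
        exact hu _ (Int.natAbs_pos.2 h5) h4

/-- Density of characters with values in `U` in a torsion coset of a diagonalizable group.
Proof: `T` = torsion of `B ⧸ N`, `n = e * |T| * (exponent of T)`; `ψ` has values in `μ_{e|T|}` on
the preimage `N'` of `T`, `B = N' × free`, so there is `ψ₀ : B → μ_{e|T|}` with `ψ₀ = ψ` on `N`;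
then `ψ' = ψ₀ * φ`, `φ : B ⧸ N → U`, and these `φ` separate the points of `B ⧸ N`; conclude with
Dedekind's `linearIndependent_monoidHom` applied to the group of all `φ : B ⧸ N →* U` and the
evaluations at the points of `B ⧸ N`. -/
theorem char_dense {B : Type} [CommGroup B] [Group.FG B] (N : Subgroup B) (e : ℕ) (he : 0 < e) :
    ∃ n : ℕ, 0 < n ∧ ∀ U : Subgroup ℂˣ, (∀ x : ℂˣ, x ^ n = 1 → x ∈ U) →
      (∃ u ∈ U, ∀ k : ℕ, 0 < k → u ^ k ≠ 1) →
      ∀ ψ : B →* ℂˣ, (∀ b ∈ N, ψ b ^ e = 1) →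
      ∀ (T : Finset B) (c : B → ℂ),
        (∀ ψ' : B →* ℂˣ, (∀ b, ψ' b ∈ U) → (∀ b ∈ N, ψ' b = ψ b) →
          ∑ b ∈ T, c b * ((ψ' b : ℂˣ) : ℂ) = 0) →
        ∑ b ∈ T, c b * ((ψ b : ℂˣ) : ℂ) = 0 := by
  classical
  obtain ⟨t, ρ, ht, hρ, hρN, hsep⟩ := Ch_struct N
  refine ⟨e * t, Nat.mul_pos he ht, fun U hU hu ψ hψ T c hsum => ?_⟩
  have hUt : ∀ x : ℂˣ, x ^ t = 1 → x ∈ U := fun x hx => hU x (by
    rw [mul_comm, pow_mul, hx, one_pow])
  have hsep' := hsep U hUt hu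
  obtain ⟨ψ₀, hψ₀⟩ : ∃ ψ₀ : B →* ℂˣ, ψ₀ = ψ.comp ρ := ⟨_, rfl⟩
  have h0U : ∀ b, ψ₀ b ∈ U := by
    intro b
    refine hU _ ?_
    rw [hψ₀, MonoidHom.comp_apply, mul_comm, pow_mul, ← map_pow]
    exact hψ _ (hρ b)
  have h0N : ∀ b ∈ N, ψ₀ b = ψ b := by
    intro b hb
    rw [hψ₀, MonoidHom.comp_apply, hρN b hb]
  -- linear independence of the evaluations
  obtain ⟨ev, hev⟩ : ∃ ev : (B ⧸ N) → (((B ⧸ N) →* U) →* ℂ),
      ∀ a φ, ev a φ = (((φ a : U) : ℂˣ) : ℂ) :=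
    ⟨fun a => { toFun := fun φ => (((φ a : U) : ℂˣ) : ℂ), map_one' := by simp,
                map_mul' := fun φ φ' => by simp }, fun a φ => rfl⟩
  have hinj : Function.Injective ev := by
    intro a a' haa
    by_contra hne
    obtain ⟨φ, hφ⟩ := hsep' (a / a') (fun h => hne (div_eq_one.1 h))
    refine hφ ?_
    rw [map_div, div_eq_one]
    have h1 : ev a φ = ev a' φ := by rw [haa]
    rw [hev, hev] at h1
    exact Subtype.ext (Units.ext h1)
  have hLI := (linearIndependent_monoidHom ((B ⧸ N) →* U) ℂ).comp ev hinj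
  rw [linearIndependent_iff'] at hLI
  obtain ⟨d, hd⟩ : ∃ d : (B ⧸ N) → ℂ, d = fun a =>
    ∑ b ∈ T with QuotientGroup.mk b = a, c b * ((ψ₀ b : ℂˣ) : ℂ) := ⟨_, rfl⟩
  have hmaps : ∀ b ∈ T, (QuotientGroup.mk b : B ⧸ N) ∈ T.image (QuotientGroup.mk : B → B ⧸ N) :=
    fun b hb => Finset.mem_image_of_mem _ hb
  have hd0 : ∀ a ∈ T.image (QuotientGroup.mk : B → B ⧸ N), d a = 0 := by
    refine hLI _ d ?_
    funext φ
    rw [Finset.sum_apply]
    have h1 := hsum (ψ₀ * (U.subtype.comp (φ.comp (QuotientGroup.mk' N))))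
      (fun b => U.mul_mem (h0U b) (φ (QuotientGroup.mk b)).2)
      (fun b hb => by
        have h2 : (QuotientGroup.mk' N) b = 1 := (QuotientGroup.eq_one_iff b).2 hb
        rw [MonoidHom.mul_apply, MonoidHom.comp_apply, MonoidHom.comp_apply, h2, map_one, map_one,
          mul_one, h0N b hb])
    rw [Pi.zero_apply, ← h1, ← Finset.sum_fiberwise_of_maps_to hmaps]
    refine Finset.sum_congr rfl fun a _ => ?_
    rw [Pi.smul_apply, Function.comp_apply, hev, hd, smul_eq_mul, Finset.sum_mul]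
    refine Finset.sum_congr rfl fun b hb => ?_
    rw [Finset.mem_filter] at hb
    rw [← hb.2, MonoidHom.mul_apply, Units.val_mul, mul_assoc]
    rfl
  -- conclusion
  obtain ⟨χ, hχ⟩ : ∃ χ : (B ⧸ N) →* ℂˣ, ∀ b, χ (QuotientGroup.mk b) = ψ b / ψ₀ b :=
    ⟨QuotientGroup.lift N (ψ / ψ₀) (fun b hb => by
      rw [MonoidHom.mem_ker, MonoidHom.div_apply, h0N b hb, div_self']), fun b => rfl⟩
  rw [← Finset.sum_fiberwise_of_maps_to hmaps]
  refine Finset.sum_eq_zero fun a ha => ?_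
  have h3 : ∑ b ∈ T with QuotientGroup.mk b = a, c b * ((ψ b : ℂˣ) : ℂ) =
      d a * ((χ a : ℂˣ) : ℂ) := by
    rw [hd, Finset.sum_mul]
    refine Finset.sum_congr rfl fun b hb => ?_
    rw [Finset.mem_filter] at hb
    rw [← hb.2, hχ, mul_assoc, ← Units.val_mul, mul_div_cancel]
  rw [h3, hd0 a ha, zero_mul]

end P002
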