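import Mathlib
import Vale.Agent.Lib.P002.Defs

open Matrix

namespace P002

private theorem Dia_basis {m : ℕ} (f : Module.End ℂ (Fin m → ℂ)) (hf : f.IsSemisimple) :
    ∃ (B : Module.Basis (Fin m) ℂ (Fin m → ℂ)) (D : Fin m → ℂ), ∀ i, f (B i) = D i • B i := by
  have htop := hf.iSup_eigenspace_eq_top
  obtain ⟨b, hbt, hspan, hli⟩ := exists_linearIndependent ℂ
    {v : Fin m → ℂ | ∃ μ : ℂ, f v = μ • v}
  have hsp : Submodule.span ℂ {v : Fin m → ℂ | ∃ μ : ℂ, f v = μ • v} = ⊤ := by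
    rw [eq_top_iff, ← htop]
    refine iSup_le fun μ v hv => Submodule.subset_span ⟨μ, ?_⟩
    exact Module.End.mem_eigenspace_iff.1 hv
  have hb : ⊤ ≤ Submodule.span ℂ (Set.range (Subtype.val : b → (Fin m → ℂ))) := by
    rw [Subtype.range_coe, hspan, hsp]
  obtain ⟨B₀, hB₀⟩ : ∃ B₀ : Module.Basis b ℂ (Fin m → ℂ), ∀ i, B₀ i = (i : Fin m → ℂ) :=
    ⟨Module.Basis.mk hli hb, fun i => Module.Basis.mk_apply hli hb i⟩
  obtain ⟨B, hB⟩ : ∃ B : Module.Basis (Fin m) ℂ (Fin m → ℂ), ∀ i, ∃ μ : ℂ, f (B i) = μ • B i := by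
    refine ⟨B₀.reindex (B₀.indexEquiv (Pi.basisFun ℂ (Fin m))), fun i => ?_⟩
    rw [Module.Basis.reindex_apply, hB₀]
    exact hbt (Subtype.coe_prop _)
  choose D hD using hB
  exact ⟨B, D, hD⟩

/-- A complex matrix of finite order is diagonalizable, by a matrix of determinant one. -/
theorem fin_order {m : ℕ} (X : Matrix (Fin m) (Fin m) ℂ) (p : ℕ) (hp : 0 < p) (hX : X ^ p = 1) :
    ∃ (g : SpecialLinearGroup (Fin m) ℂ) (D : Fin m → ℂ), (∀ l, D l ^ p = 1) ∧
      X = (g : Matrix (Fin m) (Fin m) ℂ) * Matrix.diagonal D *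
        ((g⁻¹ : SpecialLinearGroup (Fin m) ℂ) : Matrix (Fin m) (Fin m) ℂ) := by
  classical
  have hp0 : (p : ℂ) ≠ 0 := Nat.cast_ne_zero.2 hp.ne'
  have hss : Module.End.IsSemisimple (Matrix.toLin' X) := by
    refine Module.End.isSemisimple_of_squarefree_aeval_eq_zero
      (p := (Polynomial.X ^ p - Polynomial.C (1 : ℂ))) ?_ ?_
    · exact (Polynomial.separable_X_pow_sub_C (1 : ℂ) hp0 one_ne_zero).squarefree
    · rw [map_sub, map_pow, Polynomial.aeval_X, Polynomial.aeval_C, map_one, ← Matrix.toLin'_pow,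
        hX, Matrix.toLin'_one, sub_eq_zero]
      rfl
  obtain ⟨B, D, hBD⟩ := Dia_basis _ hss
  obtain ⟨G, hG⟩ : ∃ G : Matrix (Fin m) (Fin m) ℂ, G = Matrix.of fun i j => B j i := ⟨_, rfl⟩
  have hGdet : G.det ≠ 0 := by
    have h1 : IsUnit ((Pi.basisFun ℂ (Fin m)).toMatrix B) := by
      have := (Pi.basisFun ℂ (Fin m)).invertibleToMatrix B
      exact isUnit_of_invertible _
    have h2 : (Pi.basisFun ℂ (Fin m)).toMatrix B = G := by
      rw [hG]
      ext i j
      simp [Module.Basis.toMatrix_apply]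
    rw [h2] at h1
    exact ((Matrix.isUnit_iff_isUnit_det G).1 h1).ne_zero
  have hBD' : ∀ j, X.mulVec (B j) = D j • B j := by
    intro j
    have := hBD j
    rwa [Matrix.toLin'_apply] at this
  have hXG : X * G = G * Matrix.diagonal D := by
    ext i j
    rw [Matrix.mul_diagonal]
    have h := congrFun (hBD' j) i
    rw [Pi.smul_apply, smul_eq_mul] at h
    rw [hG]
    show (X.mulVec (B j)) i = _
    rw [h]
    simp [mul_comm]
  obtain ⟨c, hc0, hc⟩ : ∃ c : ℂ, c ≠ 0 ∧ c ^ m * G.det = 1 := by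
    rcases Nat.eq_zero_or_pos m with h0 | hm
    · subst h0
      exact ⟨1, one_ne_zero, by simp⟩
    · obtain ⟨c, hc⟩ := IsAlgClosed.exists_pow_nat_eq (G.det)⁻¹ hm
      refine ⟨c, ?_, by rw [hc, inv_mul_cancel₀ hGdet]⟩
      rintro rfl
      rw [zero_pow hm.ne'] at hc
      exact inv_ne_zero hGdet hc.symm
  have hdet : (c • G).det = 1 := by
    rw [Matrix.det_smul, Fintype.card_fin, hc]
  have hX2 : X * (c • G) = (c • G) * Matrix.diagonal D := by
    rw [Matrix.mul_smul, hXG, Matrix.smul_mul]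
  obtain ⟨g, hg⟩ : ∃ g : SpecialLinearGroup (Fin m) ℂ,
      (g : Matrix (Fin m) (Fin m) ℂ) = c • G := ⟨⟨c • G, hdet⟩, rfl⟩
  refine ⟨g, D, ?_, ?_⟩
  · intro l
    have h1 : ∀ k : ℕ, (X ^ k).mulVec (B l) = D l ^ k • B l := by
      intro k
      induction k with
      | zero => simp
      | succ k ih => rw [pow_succ, ← Matrix.mulVec_mulVec, hBD', Matrix.mulVec_smul, ih, smul_smul,
          pow_succ, mul_comm]
    have h2 := h1 p
    rw [hX, Matrix.one_mulVec] at h2
    have h3 : (D l ^ p - 1) • B l = 0 := by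
      rw [sub_smul, ← h2, one_smul, sub_self]
    rcases smul_eq_zero.1 h3 with h4 | h4
    · exact sub_eq_zero.1 h4
    · exact absurd h4 (B.ne_zero l)
  · have h5 : (g : Matrix (Fin m) (Fin m) ℂ) *
        ((g⁻¹ : SpecialLinearGroup (Fin m) ℂ) : Matrix (Fin m) (Fin m) ℂ) = 1 := by
      rw [← Matrix.SpecialLinearGroup.coe_mul, mul_inv_cancel, Matrix.SpecialLinearGroup.coe_one]
    rw [← hg] at hX2
    rw [← hX2, Matrix.mul_assoc, h5, Matrix.mul_one]

/-- Number fields with given roots of unity and a unit of infinite order. -/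
theorem exists_field (n : ℕ) (hn : 0 < n) : ∃ L : IntermediateField ℚ ℂ,
    FiniteDimensional ℚ L ∧ (∀ x : ℂ, x ^ n = 1 → x ∈ L) ∧
    ∃ u : ℂˣ, (u : ℂ) ∈ L ∧ IsIntegral ℤ (u : ℂ) ∧ IsIntegral ℤ ((u⁻¹ : ℂˣ) : ℂ) ∧
      ∀ k : ℕ, 0 < k → u ^ k ≠ 1 := by
  classical
  obtain ⟨s, hs⟩ : ∃ s : ℂ, s = ((Real.sqrt 2 : ℝ) : ℂ) := ⟨_, rfl⟩
  have hs2 : s ^ 2 = 2 := by
    rw [hs, ← Complex.ofReal_pow, Real.sq_sqrt (by norm_num)]
    norm_num
  have hsi : IsIntegral ℤ s := by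
    refine IsIntegral.of_pow (n := 2) (by norm_num) ?_
    rw [hs2]
    have := isIntegral_algebraMap (R := ℤ) (A := ℂ) (x := 2)
    simpa using this
  have hroot : ∀ x : ℂ, x ^ n = 1 → IsIntegral ℤ x := by
    intro x hx
    refine IsIntegral.of_pow hn ?_
    rw [hx]
    exact isIntegral_one
  obtain ⟨S, hS⟩ : ∃ S : Set ℂ, S = {x : ℂ | x ^ n = 1} ∪ {s} := ⟨_, rfl⟩
  have hfin : S.Finite := by
    rw [hS]
    refine Set.Finite.union ?_ (Set.finite_singleton s)
    refine ((Polynomial.nthRoots n (1 : ℂ)).toFinset.finite_toSet).subset fun x hx => ?_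
    simpa [Polynomial.mem_nthRoots hn] using hx
  have : Finite S := hfin
  have hSint : ∀ x ∈ S, IsIntegral ℚ x := by
    intro x hx
    rw [hS] at hx
    rcases hx with hx | hx
    · exact (hroot x hx).tower_top
    · rw [Set.mem_singleton_iff.1 hx]
      exact hsi.tower_top
  refine ⟨IntermediateField.adjoin ℚ S, IntermediateField.finiteDimensional_adjoin hSint,
    fun x hx => IntermediateField.subset_adjoin ℚ S (by rw [hS]; exact Or.inl hx), ?_⟩
  have hsS : s ∈ IntermediateField.adjoin ℚ S :=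
    IntermediateField.subset_adjoin ℚ S (by rw [hS]; exact Or.inr rfl)
  refine ⟨⟨1 + s, s - 1, by linear_combination hs2, by linear_combination hs2⟩, ?_, ?_, ?_, ?_⟩
  · exact add_mem (one_mem _) hsS
  · exact isIntegral_one.add hsi
  · exact hsi.sub isIntegral_one
  · intro k hk h
    have h1 : (1 + s) ^ k = 1 := by
      have := congrArg (Units.val) h
      simpa using this
    have h2 : ‖(1 + s)‖ ^ k = 1 := by
      rw [← norm_pow, h1, norm_one]
    have h3 : ‖(1 + s)‖ = 1 + Real.sqrt 2 := by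
      have h4 : (1 + s) = ((1 + Real.sqrt 2 : ℝ) : ℂ) := by
        rw [hs]
        push_cast
        rfl
      rw [h4, Complex.norm_real, Real.norm_eq_abs, abs_of_pos (by positivity)]
    have h5 : (1 : ℝ) < ‖(1 + s)‖ := by
      rw [h3]
      have : 0 < Real.sqrt 2 := Real.sqrt_pos.2 (by norm_num)
      linarith
    exact absurd h2 (one_lt_pow₀ h5 hk.ne').ne'

end P002
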