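import Mathlib
import Vale.Agent.Lib.P002.Defs

open Matrix

namespace P002

/-! Generic closure lemmas for matrices with entries in a subring of functions. -/

section poly

variable {X : Type} (𝒜 : Subalgebra ℂ (X → ℂ)) {m : ℕ}

/-- Evaluation at a point. -/
noncomputable def ev (x : X) : 𝒜 →+* ℂ :=
  (Pi.evalRingHom (fun _ : X => ℂ) x).comp 𝒜.val.toRingHom

/-- The matrix valued function `A` has entries in `𝒜`. -/
def IsPoly (A : X → Matrix (Fin m) (Fin m) ℂ) : Prop :=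
  ∃ B : Matrix (Fin m) (Fin m) 𝒜, ∀ x, A x = B.map (ev 𝒜 x)

variable {𝒜}

theorem isPoly_iff {A : X → Matrix (Fin m) (Fin m) ℂ} :
    IsPoly 𝒜 A ↔ ∀ a b, (fun x => A x a b) ∈ 𝒜 := by
  constructor
  · rintro ⟨B, hB⟩ a b
    have : (fun x => A x a b) = (B a b : X → ℂ) := by
      funext x
      rw [hB x]
      rfl
    rw [this]
    exact (B a b).2
  · intro h
    refine ⟨fun a b => ⟨fun x => A x a b, h a b⟩, fun x => ?_⟩
    ext a b
    rfl

theorem IsPoly.mul {A B : X → Matrix (Fin m) (Fin m) ℂ} (hA : IsPoly 𝒜 A) (hB : IsPoly 𝒜 B) :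
    IsPoly 𝒜 (fun x => A x * B x) := by
  obtain ⟨A', hA'⟩ := hA
  obtain ⟨B', hB'⟩ := hB
  exact ⟨A' * B', fun x => by
    show A x * B x = _
    rw [hA' x, hB' x, Matrix.map_mul]⟩

theorem IsPoly.const (C : Matrix (Fin m) (Fin m) ℂ) : IsPoly 𝒜 (fun _ => C) := by
  rw [isPoly_iff]
  intro a b
  exact 𝒜.algebraMap_mem (C a b)

theorem IsPoly.adj {A : X → Matrix (Fin m) (Fin m) ℂ} (hA : IsPoly 𝒜 A) :
    IsPoly 𝒜 (fun x => (A x).adjugate) := by
  obtain ⟨A', hA'⟩ := hA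
  exact ⟨A'.adjugate, fun x => by
    show (A x).adjugate = _
    rw [hA' x]
    exact ((ev 𝒜 x).map_adjugate A').symm⟩

theorem det_mem {ι : Type} [Fintype ι] [DecidableEq ι] {A : X → Matrix ι ι ℂ}
    (hA : ∀ a b, (fun x => A x a b) ∈ 𝒜) : (fun x => (A x).det) ∈ 𝒜 := by
  let B : Matrix ι ι 𝒜 := fun a b => ⟨fun x => A x a b, hA a b⟩
  have : (fun x => (A x).det) = ((B.det : 𝒜) : X → ℂ) := by
    funext x
    have h1 : A x = B.map (ev 𝒜 x) := by
      ext a b
      rfl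
    rw [h1]
    exact ((ev 𝒜 x).map_det B).symm
  rw [this]
  exact B.det.2

theorem eval_mem {Y : Type} (v : Y → X → ℂ) (hv : ∀ y, v y ∈ 𝒜) (f : MvPolynomial Y ℂ) :
    (fun x => MvPolynomial.eval (fun y => v y x) f) ∈ 𝒜 := by
  induction f using MvPolynomial.induction_on with
  | C a =>
    simp only [MvPolynomial.eval_C]
    exact 𝒜.algebraMap_mem a
  | add p q hp hq =>
    simp only [map_add]
    exact 𝒜.add_mem hp hq
  | mul_X p y hp =>
    simp only [map_mul, MvPolynomial.eval_X]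
    exact 𝒜.mul_mem hp (hv y)

theorem blk_mem {r n : ℕ} {m : Fin n → ℕ} (ε : (Σ j, Fin (m j)) ≃ Fin r)
    (A : X → ∀ j, Matrix (Fin (m j)) (Fin (m j)) ℂ)
    (hA : ∀ j a b, (fun x => A x j a b) ∈ 𝒜) (a b : Fin r) :
    (fun x => blk ε (A x) a b) ∈ 𝒜 := by
  unfold blk
  simp only [Matrix.reindex_apply, Matrix.submatrix_apply]
  obtain ⟨j, a'⟩ := ε.symm a
  obtain ⟨j', b'⟩ := ε.symm b
  by_cases h : j = j'
  · subst h
    simp only [Matrix.blockDiagonal'_apply_eq]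
    exact hA j a' b'
  · simp only [Matrix.blockDiagonal'_apply_ne _ _ _ h]
    exact 𝒜.zero_mem

end poly

section blk

variable {r n : ℕ} {m : Fin n → ℕ} (ε : (Σ j, Fin (m j)) ≃ Fin r)

theorem blk_mul (A B : ∀ j, Matrix (Fin (m j)) (Fin (m j)) ℂ) :
    blk ε (fun j => A j * B j) = blk ε A * blk ε B := by
  unfold blk
  rw [Matrix.blockDiagonal'_mul]
  simp [Matrix.reindex_apply, Matrix.submatrix_mul_equiv]

theorem blk_one : blk ε (fun _ => 1) = 1 := by
  unfold blk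
  have : (Matrix.blockDiagonal' fun j : Fin n => (1 : Matrix (Fin (m j)) (Fin (m j)) ℂ)) = 1 :=
    Matrix.blockDiagonal'_one
  rw [this]
  simp

theorem det_blk (A : ∀ j, Matrix (Fin (m j)) (Fin (m j)) ℂ) :
    (blk ε A).det = ∏ j, (A j).det := by
  unfold blk
  rw [Matrix.det_reindex_self,
    (Matrix.blockTriangular_blockDiagonal' A).det_fintype]
  refine Finset.prod_congr rfl fun k _ => ?_
  rw [← Matrix.det_submatrix_equiv_self (Equiv.sigmaSubtype k).symm]
  congr 1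
  ext a b
  exact Matrix.blockDiagonal'_apply_eq A k a b

end blk

end P002
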