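import Mathlib
import Vale.Agent.Lib.P002.Fam

open Matrix

namespace P002

/-- The universal property of the pair (`Z`, lifts of the generators). -/
structure Gens (Γ : Type) [Group Γ] (Z : Subgroup Γ) (k : ℕ) (p : Fin k → ℕ) where
  x : Fin k → Γ
  pw : ∀ i, x i ^ p i ∈ Z
  gen : Subgroup.closure ((Z : Set Γ) ∪ Set.range x) = ⊤
  lift : ∀ (G : Type) [Group G] (y : Fin k → G), (∀ i, y i ^ p i = 1) →
        ∃ W : Γ →* G, (∀ z ∈ Z, W z = 1) ∧ ∀ i, W (x i) = y i

variable {Γ : Type} [Group Γ] {Z : Subgroup Γ} {k : ℕ} {p : Fin k → ℕ} (S : Gens Γ Z k p)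
variable {m : ℕ}

theorem Gens.ind {S : Gens Γ Z k p} (H : Subgroup Γ) (h1 : ∀ z ∈ Z, z ∈ H)
    (h2 : ∀ i, S.x i ∈ H) : ∀ γ, γ ∈ H := by
  have : (⊤ : Subgroup Γ) ≤ H := by
    rw [← S.gen, Subgroup.closure_le]
    rintro y (hy | ⟨i, rfl⟩)
    · exact h1 y hy
    · exact h2 i
  exact fun γ => this (Subgroup.mem_top γ)

/-- The diagonal unit. -/
noncomputable def dg : (Fin m → ℂ)ˣ →* (Matrix (Fin m) (Fin m) ℂ)ˣ :=
  Units.map (Matrix.diagonalRingHom (Fin m) ℂ).toMonoidHom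

/-- The unit of a matrix of determinant one. -/
noncomputable def su : SpecialLinearGroup (Fin m) ℂ →* (Matrix (Fin m) (Fin m) ℂ)ˣ :=
  MonoidHom.toHomUnits SpecialLinearGroup.coeMonoidHom

theorem su_coe (h : SpecialLinearGroup (Fin m) ℂ) :
    ((su h : (Matrix (Fin m) (Fin m) ℂ)ˣ) : Matrix (Fin m) (Fin m) ℂ) = h := rfl

theorem su_inv_coe (h : SpecialLinearGroup (Fin m) ℂ) :
    (((su h)⁻¹ : (Matrix (Fin m) (Fin m) ℂ)ˣ) : Matrix (Fin m) (Fin m) ℂ)
      = ((h⁻¹ : SpecialLinearGroup (Fin m) ℂ) : Matrix (Fin m) (Fin m) ℂ) := by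
  rw [← map_inv]
  rfl

theorem dg_coe (D : (Fin m → ℂ)ˣ) :
    ((dg D : (Matrix (Fin m) (Fin m) ℂ)ˣ) : Matrix (Fin m) (Fin m) ℂ)
      = Matrix.diagonal (D : Fin m → ℂ) := rfl

/-- The images of the generators. -/
noncomputable def yv (p : Fin k → ℕ) (D : Fin k → (Fin m → ℂ)ˣ)
    (h : Fin k → SpecialLinearGroup (Fin m) ℂ)
    (i : Fin k) : (Matrix (Fin m) (Fin m) ℂ)ˣ :=
  if p i = 0 then su (h i) else su (h i) * dg (D i) * (su (h i))⁻¹

theorem yv_pow (D : Fin k → (Fin m → ℂ)ˣ) (hD : ∀ i, D i ^ p i = 1)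
    (h : Fin k → SpecialLinearGroup (Fin m) ℂ) (i : Fin k) : yv p D h i ^ p i = 1 := by
  unfold yv
  by_cases hi : p i = 0
  · rw [if_pos hi, hi, pow_zero]
  · rw [if_neg hi, conj_pow, ← map_pow, hD i, map_one, mul_one, mul_inv_cancel]

/-- The representation with given images of the generators. -/
noncomputable def Wr (D : Fin k → (Fin m → ℂ)ˣ) (hD : ∀ i, D i ^ p i = 1)
    (h : Fin k → SpecialLinearGroup (Fin m) ℂ) : Γ →* (Matrix (Fin m) (Fin m) ℂ)ˣ :=
  Classical.choose (S.lift _ (yv p D h) (yv_pow D hD h))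

variable (D : Fin k → (Fin m → ℂ)ˣ) (hD : ∀ i, D i ^ p i = 1)
    (h : Fin k → SpecialLinearGroup (Fin m) ℂ)

theorem Wr_Z (z : Γ) (hz : z ∈ Z) : Wr S D hD h z = 1 :=
  (Classical.choose_spec (S.lift _ (yv p D h) (yv_pow D hD h))).1 z hz

theorem Wr_x (i : Fin k) : Wr S D hD h (S.x i) = yv p D h i :=
  (Classical.choose_spec (S.lift _ (yv p D h) (yv_pow D hD h))).2 i

/-- The determinant character. -/
noncomputable def dt : (Matrix (Fin m) (Fin m) ℂ)ˣ →* ℂˣ :=
  Units.map (Matrix.detMonoidHom : Matrix (Fin m) (Fin m) ℂ →* ℂ)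

theorem dt_coe (A : (Matrix (Fin m) (Fin m) ℂ)ˣ) :
    ((dt A : ℂˣ) : ℂ) = (A : Matrix (Fin m) (Fin m) ℂ).det := rfl

theorem dt_su (g : SpecialLinearGroup (Fin m) ℂ) : dt (su g) = 1 := by
  ext
  rw [dt_coe, su_coe, g.det_coe]
  rfl

theorem dt_yv (i : Fin k) : dt (yv p D h i) = if p i = 0 then 1 else dt (dg (D i)) := by
  unfold yv
  by_cases hi : p i = 0
  · rw [if_pos hi, if_pos hi, dt_su]
  · rw [if_neg hi, if_neg hi, map_mul, map_mul, map_inv, dt_su]
    simp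

theorem dt_indep (h' : Fin k → SpecialLinearGroup (Fin m) ℂ) (γ : Γ) :
    dt (Wr S D hD h γ) = dt (Wr S D hD h' γ) := by
  have := Gens.ind (S := S) (((dt.comp (Wr S D hD h))).eqLocus (dt.comp (Wr S D hD h')))
    (fun z hz => by
      show dt (Wr S D hD h z) = dt (Wr S D hD h' z)
      rw [Wr_Z S D hD h z hz, Wr_Z S D hD h' z hz])
    (fun i => by
      show dt (Wr S D hD h (S.x i)) = dt (Wr S D hD h' (S.x i))
      rw [Wr_x, Wr_x, dt_yv, dt_yv])
  exact this γ

/-- The product of the nonzero `p i`. -/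
def NN (p : Fin k → ℕ) : ℕ := ∏ i, if p i = 0 then 1 else p i

theorem NN_pos (p : Fin k → ℕ) : 0 < NN p := by
  unfold NN
  refine Finset.prod_pos fun i _ => ?_
  split_ifs with hi
  · exact one_pos
  · omega

theorem dvd_NN (p : Fin k → ℕ) (i : Fin k) (hi : p i ≠ 0) : p i ∣ NN p := by
  unfold NN
  have := Finset.dvd_prod_of_mem (fun i => if p i = 0 then 1 else p i) (Finset.mem_univ i)
  simpa [hi] using this

theorem dt_pow (γ : Γ) : dt (Wr S D hD h γ) ^ NN p = 1 := by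
  let φ : Γ →* ℂˣ := (powMonoidHom (NN p)).comp (dt.comp (Wr S D hD h))
  have := Gens.ind (S := S) φ.ker
    (fun z hz => by
      show (dt (Wr S D hD h z)) ^ NN p = 1
      rw [Wr_Z S D hD h z hz, map_one, one_pow])
    (fun i => by
      show (dt (Wr S D hD h (S.x i))) ^ NN p = 1
      rw [Wr_x, dt_yv]
      by_cases hi : p i = 0
      · rw [if_pos hi, one_pow]
      · rw [if_neg hi]
        obtain ⟨t, ht⟩ := dvd_NN p i hi
        have h1 : dt (dg (D i)) ^ p i = 1 := by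
          rw [← map_pow, ← map_pow, hD i, map_one, map_one]
        rw [ht, pow_mul, h1, one_pow])
  exact this γ

/-- `A` and `A⁻¹` have entries in the subring `O`. -/
def InR (O : Subring ℂ) : Subgroup (Matrix (Fin m) (Fin m) ℂ)ˣ where
  carrier := {A | (∀ a b, (A : Matrix (Fin m) (Fin m) ℂ) a b ∈ O) ∧
    ∀ a b, ((A⁻¹ : (Matrix (Fin m) (Fin m) ℂ)ˣ) : Matrix (Fin m) (Fin m) ℂ) a b ∈ O}
  mul_mem' := by
    rintro A B ⟨hA, hA'⟩ ⟨hB, hB'⟩
    refine ⟨fun a b => ?_, fun a b => ?_⟩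
    · rw [Units.val_mul, Matrix.mul_apply]
      exact O.sum_mem fun c _ => O.mul_mem (hA a c) (hB c b)
    · rw [_root_.mul_inv_rev, Units.val_mul, Matrix.mul_apply]
      exact O.sum_mem fun c _ => O.mul_mem (hB' a c) (hA' c b)
  one_mem' := by
    refine ⟨fun a b => ?_, fun a b => ?_⟩
    · rw [Units.val_one, Matrix.one_apply]
      split_ifs
      · exact O.one_mem
      · exact O.zero_mem
    · rw [inv_one, Units.val_one, Matrix.one_apply]
      split_ifs
      · exact O.one_mem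
      · exact O.zero_mem
  inv_mem' := by
    rintro A ⟨hA, hA'⟩
    exact ⟨hA', by rwa [inv_inv]⟩

theorem Wr_mem (O : Subring ℂ) (hD' : ∀ i, p i ≠ 0 → dg (D i) ∈ InR O)
    (hh : ∀ i, su (h i) ∈ InR O) (γ : Γ) : Wr S D hD h γ ∈ InR O := by
  have := Gens.ind (S := S) ((InR O).comap (Wr S D hD h))
    (fun z hz => by
      show Wr S D hD h z ∈ InR O
      rw [Wr_Z S D hD h z hz]
      exact (InR O).one_mem)
    (fun i => by
      show Wr S D hD h (S.x i) ∈ InR O
      rw [Wr_x]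
      unfold yv
      by_cases hi : p i = 0
      · rw [if_pos hi]
        exact hh i
      · rw [if_neg hi]
        exact (InR O).mul_mem ((InR O).mul_mem (hh i) (hD' i hi)) ((InR O).inv_mem (hh i)))
  exact this γ

/-- Polynomial dependence on the parameter: `A x` and `(A x)⁻¹` have entries in `𝒜`. -/
def InP {X : Type} (𝒜 : Subalgebra ℂ (X → ℂ)) : Subgroup (X → (Matrix (Fin m) (Fin m) ℂ)ˣ) where
  carrier := {A | IsPoly 𝒜 (fun x => (A x : Matrix (Fin m) (Fin m) ℂ)) ∧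
    IsPoly 𝒜 (fun x => (((A x)⁻¹ : (Matrix (Fin m) (Fin m) ℂ)ˣ) : Matrix (Fin m) (Fin m) ℂ))}
  mul_mem' := by
    rintro A B ⟨hA, hA'⟩ ⟨hB, hB'⟩
    refine ⟨?_, ?_⟩
    · exact hA.mul hB
    · have := hB'.mul hA'
      refine (congrArg (IsPoly 𝒜) ?_).mp this
      funext x
      rw [Pi.mul_apply, _root_.mul_inv_rev, Units.val_mul]
  one_mem' := by
    refine ⟨?_, ?_⟩
    · exact IsPoly.const 1
    · have := IsPoly.const (𝒜 := 𝒜) (1 : Matrix (Fin m) (Fin m) ℂ)
      refine (congrArg (IsPoly 𝒜) ?_).mp this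
      funext x
      rw [Pi.one_apply, inv_one, Units.val_one]
  inv_mem' := by
    rintro A ⟨hA, hA'⟩
    refine ⟨hA', ?_⟩
    refine (congrArg (IsPoly 𝒜) ?_).mp hA
    funext x
    rw [Pi.inv_apply, inv_inv]

theorem Wr_poly {X : Type} (𝒜 : Subalgebra ℂ (X → ℂ))
    (H : X → Fin k → SpecialLinearGroup (Fin m) ℂ)
    (hH : ∀ i, IsPoly 𝒜 (fun x => (H x i : Matrix (Fin m) (Fin m) ℂ))) (γ : Γ) :
    IsPoly 𝒜 (fun x => (Wr S D hD (H x) γ : Matrix (Fin m) (Fin m) ℂ)) := by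
  have hs : ∀ i, (fun x => su (H x i)) ∈ InP (m := m) 𝒜 := by
    intro i
    refine ⟨hH i, ?_⟩
    have h2 := (hH i).adj
    refine (congrArg (IsPoly 𝒜) ?_).mp h2
    funext x
    rw [su_inv_coe]
    exact (Matrix.SpecialLinearGroup.coe_inv (H x i)).symm
  let φ : Γ →* (X → (Matrix (Fin m) (Fin m) ℂ)ˣ) :=
    { toFun := fun γ x => Wr S D hD (H x) γ
      map_one' := by funext x; simp
      map_mul' := fun a b => by funext x; simp }
  have := Gens.ind (S := S) ((InP (m := m) 𝒜).comap φ)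
    (fun z hz => by
      show (fun x => Wr S D hD (H x) z) ∈ InP (m := m) 𝒜
      have : (fun x => Wr S D hD (H x) z) = 1 := by
        funext x
        rw [Wr_Z S D hD (H x) z hz]
        rfl
      rw [this]
      exact (InP 𝒜).one_mem)
    (fun i => by
      show (fun x => Wr S D hD (H x) (S.x i)) ∈ InP (m := m) 𝒜
      by_cases hi : p i = 0
      · have : (fun x => Wr S D hD (H x) (S.x i)) = fun x => su (H x i) := by
          funext x
          rw [Wr_x]
          unfold yv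
          rw [if_pos hi]
        rw [this]
        exact hs i
      · have hc : (fun _ : X => dg (D i)) ∈ InP (m := m) 𝒜 :=
          ⟨IsPoly.const _, IsPoly.const _⟩
        have : (fun x => Wr S D hD (H x) (S.x i))
            = (fun x => su (H x i)) * (fun _ => dg (D i)) * (fun x => su (H x i))⁻¹ := by
          funext x
          rw [Wr_x]
          unfold yv
          rw [if_neg hi]
          rfl
        rw [this]
        exact (InP 𝒜).mul_mem ((InP 𝒜).mul_mem (hs i) hc) ((InP 𝒜).inv_mem (hs i)))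
  exact (this γ).1

end P002
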