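import Mathlib
import Vale.Agent.Lib.P002.Wfam
import Vale.Agent.Lib.P002.Bur
import Vale.Agent.Lib.P002.Dia

open Matrix

namespace P002

variable {Γ : Type} [Group Γ] {Z : Subgroup Γ} {k : ℕ} {p : Fin k → ℕ} (S : Gens Γ Z k p)
variable {m : ℕ}

/-- Scalars. -/
noncomputable def sc : ℂˣ →* (Matrix (Fin m) (Fin m) ℂ)ˣ :=
  Units.map (algebraMap ℂ (Matrix (Fin m) (Fin m) ℂ)).toMonoidHom

theorem sc_coe (c : ℂˣ) : ((sc c : (Matrix (Fin m) (Fin m) ℂ)ˣ) : Matrix (Fin m) (Fin m) ℂ)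
    = (c : ℂ) • (1 : Matrix (Fin m) (Fin m) ℂ) := by
  show algebraMap ℂ (Matrix (Fin m) (Fin m) ℂ) (c : ℂ) = _
  rw [Algebra.algebraMap_eq_smul_one]

theorem sc_comm (c : ℂˣ) (A : (Matrix (Fin m) (Fin m) ℂ)ˣ) : sc c * A = A * sc c := by
  ext1
  rw [Units.val_mul, Units.val_mul, sc_coe]
  simp

theorem sc_inj (hm : 0 < m) : Function.Injective (sc : ℂˣ →* (Matrix (Fin m) (Fin m) ℂ)ˣ) := by
  intro a b hab
  have h1 : ((sc a : (Matrix (Fin m) (Fin m) ℂ)ˣ) : Matrix (Fin m) (Fin m) ℂ) ⟨0, hm⟩ ⟨0, hm⟩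
      = ((sc b : (Matrix (Fin m) (Fin m) ℂ)ˣ) : Matrix (Fin m) (Fin m) ℂ) ⟨0, hm⟩ ⟨0, hm⟩ := by
    rw [hab]
  rw [sc_coe, sc_coe] at h1
  ext
  simpa using h1

theorem exists_one (hm : 0 < m) (τ : (Matrix (Fin m) (Fin m) ℂ)ˣ) (q : ℕ) (c : ℂˣ)
    (hc : τ ^ q = sc c) :
    ∃ (β : ℂˣ) (D : (Fin m → ℂ)ˣ) (g : SpecialLinearGroup (Fin m) ℂ), D ^ q = 1 ∧
      τ = sc β * (if q = 0 then su g else su g * dg D * (su g)⁻¹) := by
  by_cases hq : q = 0
  · have hdet : (τ : Matrix (Fin m) (Fin m) ℂ).det ≠ 0 := by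
      have := (τ.isUnit.map (Matrix.detMonoidHom : Matrix (Fin m) (Fin m) ℂ →* ℂ)).ne_zero
      exact this
    obtain ⟨b, hb⟩ := IsAlgClosed.exists_pow_nat_eq (τ : Matrix (Fin m) (Fin m) ℂ).det hm
    have hb0 : b ≠ 0 := by
      rintro rfl
      rw [zero_pow hm.ne'] at hb
      exact hdet hb.symm
    refine ⟨Units.mk0 b hb0, 1, ⟨b⁻¹ • (τ : Matrix (Fin m) (Fin m) ℂ), ?_⟩, one_pow _, ?_⟩
    · rw [Matrix.det_smul, Fintype.card_fin, ← hb, ← mul_pow, inv_mul_cancel₀ hb0, one_pow]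
    · rw [if_pos hq]
      ext1
      rw [Units.val_mul, sc_coe]
      show _ = (b • (1 : Matrix (Fin m) (Fin m) ℂ)) * (b⁻¹ • (τ : Matrix (Fin m) (Fin m) ℂ))
      rw [smul_mul_smul_comm, mul_inv_cancel₀ hb0, one_smul, one_mul]
  · have hq0 : 0 < q := Nat.pos_of_ne_zero hq
    obtain ⟨b, hb⟩ := IsAlgClosed.exists_pow_nat_eq (c : ℂ) hq0
    have hb0 : b ≠ 0 := by
      rintro rfl
      rw [zero_pow hq] at hb
      exact c.ne_zero hb.symm
    have hX : (b⁻¹ • (τ : Matrix (Fin m) (Fin m) ℂ)) ^ q = 1 := by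
      rw [smul_pow, ← Units.val_pow_eq_pow_val, hc, sc_coe, smul_smul, ← hb, ← mul_pow,
        inv_mul_cancel₀ hb0, one_pow, one_smul]
    obtain ⟨g, D, hD, hg⟩ := fin_order _ q hq0 hX
    have hD1 : D ^ q = 1 := by
      funext l
      exact hD l
    refine ⟨Units.mk0 b hb0, Units.ofPowEqOne D q hD1 hq, g, Units.pow_ofPowEqOne hD1 hq, ?_⟩
    rw [if_neg hq]
    ext1
    rw [Units.val_mul, Units.val_mul, Units.val_mul, sc_coe, su_coe, su_inv_coe, dg_coe]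
    have h2 : (τ : Matrix (Fin m) (Fin m) ℂ) = b • (b⁻¹ • (τ : Matrix (Fin m) (Fin m) ℂ)) := by
      rw [smul_smul, mul_inv_cancel₀ hb0, one_smul]
    rw [h2, hg]
    simp

theorem decomp (hZ : Z ≤ Subgroup.center Γ) (τ : Γ →* Matrix (Fin m) (Fin m) ℂ)
    (hτ : Irred τ) :
    ∃ (θ : Γ →* ℂˣ) (D : Fin k → (Fin m → ℂ)ˣ) (hD : ∀ i, D i ^ p i = 1)
      (h : Fin k → SpecialLinearGroup (Fin m) ℂ),
      ∀ γ, τ γ = (θ γ : ℂ) • (Wr S D hD h γ : Matrix (Fin m) (Fin m) ℂ) := by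
  have hm := hτ.1
  set τu : Γ →* (Matrix (Fin m) (Fin m) ℂ)ˣ := τ.toHomUnits with hτu
  have hcoe : ∀ γ, (τu γ : Matrix (Fin m) (Fin m) ℂ) = τ γ := fun γ => rfl
  have hz : ∀ z ∈ Z, ∃ c : ℂˣ, τu z = sc c := by
    intro z hz
    obtain ⟨c, hc⟩ := schur τ hτ z (fun γ => ((Subgroup.mem_center_iff.mp (hZ hz)) γ).symm)
    have hc0 : c ≠ 0 := by
      rintro rfl
      have h1 := (τu z).isUnit.map (Matrix.detMonoidHom : Matrix (Fin m) (Fin m) ℂ →* ℂ)
      have h2 : (τu z : Matrix (Fin m) (Fin m) ℂ) = 0 := by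
        rw [hcoe, hc, zero_smul]
      rw [h2] at h1
      have h3 : (Matrix.detMonoidHom : Matrix (Fin m) (Fin m) ℂ →* ℂ) 0 = 0 := by
        have : Nonempty (Fin m) := ⟨⟨0, hm⟩⟩
        exact Matrix.det_zero
      rw [h3] at h1
      exact not_isUnit_zero h1
    refine ⟨Units.mk0 c hc0, ?_⟩
    ext1
    rw [hcoe, hc, sc_coe]
    rfl
  have hx : ∀ i, ∃ (β : ℂˣ) (D : (Fin m → ℂ)ˣ) (g : SpecialLinearGroup (Fin m) ℂ),
      D ^ p i = 1 ∧
      τu (S.x i) = sc β * (if p i = 0 then su g else su g * dg D * (su g)⁻¹) := by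
    intro i
    obtain ⟨c, hc⟩ := hz _ (S.pw i)
    rw [map_pow] at hc
    exact exists_one hm _ _ c hc
  choose β D g hD hg using hx
  have key : ∀ γ, ∃ c : ℂˣ, τu γ = sc c * Wr S D hD g γ := by
    let H : Subgroup Γ :=
      { carrier := {γ | ∃ c : ℂˣ, τu γ = sc c * Wr S D hD g γ}
        mul_mem' := by
          rintro a b ⟨c, hc⟩ ⟨d, hd⟩
          refine ⟨c * d, ?_⟩
          rw [map_mul, hc, hd, map_mul, map_mul]
          calc sc c * Wr S D hD g a * (sc d * Wr S D hD g b)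
              = sc c * (Wr S D hD g a * sc d) * Wr S D hD g b := by group
            _ = sc c * (sc d * Wr S D hD g a) * Wr S D hD g b := by rw [sc_comm d]
            _ = sc c * sc d * (Wr S D hD g a * Wr S D hD g b) := by group
        one_mem' := ⟨1, by simp⟩
        inv_mem' := by
          rintro a ⟨c, hc⟩
          refine ⟨c⁻¹, ?_⟩
          rw [map_inv, hc, map_inv, map_inv, _root_.mul_inv_rev]
          exact ((show Commute (sc c) (Wr S D hD g a) from sc_comm c _).inv_inv).symm }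
    exact Gens.ind (S := S) H
      (fun z hzz => by
        obtain ⟨c, hc⟩ := hz z hzz
        exact ⟨c, by rw [hc, Wr_Z S D hD g z hzz, mul_one]⟩)
      (fun i => ⟨β i, by
        rw [hg i, Wr_x]
        rfl⟩)
  choose c hc using key
  have hinj := sc_inj hm
  refine ⟨⟨⟨c, ?_⟩, ?_⟩, D, hD, g, fun γ => ?_⟩
  · apply hinj
    have := hc 1
    rw [map_one, map_one, mul_one] at this
    rw [← this, map_one]
  · intro a b
    apply hinj
    have h1 := hc (a * b)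
    rw [map_mul, hc a, hc b, map_mul] at h1
    have h2 : sc (c (a * b)) * (Wr S D hD g a * Wr S D hD g b)
        = sc (c a) * sc (c b) * (Wr S D hD g a * Wr S D hD g b) := by
      rw [← h1]
      calc sc (c a) * Wr S D hD g a * (sc (c b) * Wr S D hD g b)
          = sc (c a) * (Wr S D hD g a * sc (c b)) * Wr S D hD g b := by group
        _ = sc (c a) * (sc (c b) * Wr S D hD g a) * Wr S D hD g b := by rw [sc_comm (c b)]
        _ = _ := by group
    show sc (c (a * b)) = sc (c a * c b)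
    rw [map_mul]
    exact mul_right_cancel h2
  · show τ γ = ((c γ : ℂˣ) : ℂ) • _
    rw [← hcoe, hc γ, Units.val_mul, sc_coe, smul_mul_assoc, one_mul]

end P002
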