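import Mathlib
import Vale.Agent.Lib.P002.Defs

namespace P002

/-- the homomorphism from a cyclic group given by an element of finite order -/
private theorem lft_hom (n : ℕ) {G : Type} [Group G] (y : G) (hy : y ^ n = 1) :
    ∃ φ : Multiplicative (ZMod n) →* G, φ (Multiplicative.ofAdd 1) = y := by
  let f : ℤ →+ Additive G := zmultiplesHom (Additive G) (Additive.ofMul y)
  have hf : f n = 0 := by
    show zmultiplesHom (Additive G) (Additive.ofMul y) (n : ℤ) = 0
    rw [zmultiplesHom_apply, natCast_zsmul, ← ofMul_pow, hy, ofMul_one]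
  let ψ : ZMod n →+ Additive G := ZMod.lift n ⟨f, hf⟩
  have h1 : ψ 1 = Additive.ofMul y := by
    have h2 : ψ ((1 : ℤ) : ZMod n) = f 1 := ZMod.lift_coe n ⟨f, hf⟩ 1
    rw [Int.cast_one] at h2
    rw [h2]
    show zmultiplesHom (Additive G) (Additive.ofMul y) (1 : ℤ) = _
    rw [zmultiplesHom_apply, one_zsmul]
  refine ⟨{ toFun := fun a => Additive.toMul (ψ (Multiplicative.toAdd a))
            map_one' := ?_
            map_mul' := ?_ }, ?_⟩
  · rw [toAdd_one, map_zero, toMul_zero]
  · intro a b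
    rw [toAdd_mul, map_add, toMul_add]
  · show Additive.toMul (ψ (Multiplicative.toAdd (Multiplicative.ofAdd 1))) = y
    rw [toAdd_ofAdd, h1, toMul_ofMul]

private theorem lft_pow (n : ℕ) :
    (Multiplicative.ofAdd (1 : ZMod n)) ^ n = 1 := by
  rw [← ofAdd_nsmul, nsmul_eq_mul, mul_one, ZMod.natCast_self, ofAdd_zero]

private theorem lft_zpow (n : ℕ) (a : Multiplicative (ZMod n)) :
    ∃ z : ℤ, a = (Multiplicative.ofAdd (1 : ZMod n)) ^ z := by
  obtain ⟨z, hz⟩ := ZMod.intCast_surjective (Multiplicative.toAdd a)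
  refine ⟨z, ?_⟩
  rw [← ofAdd_zsmul, zsmul_eq_mul, mul_one, hz, ofAdd_toAdd]

/-- Lifts of the standard generators, with the universal property of the quotient. -/
theorem exists_lifts {Γ : Type} [Group Γ] (Z : Subgroup Γ) [Z.Normal] (k : ℕ) (p : Fin k → ℕ)
    (E : Γ ⧸ Z ≃* Monoid.CoprodI (fun i : Fin k => Multiplicative (ZMod (p i)))) :
    ∃ x : Fin k → Γ, (∀ i, x i ^ p i ∈ Z) ∧
      Subgroup.closure ((Z : Set Γ) ∪ Set.range x) = ⊤ ∧
      ∀ (G : Type) [Group G] (y : Fin k → G), (∀ i, y i ^ p i = 1) →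
        ∃ W : Γ →* G, (∀ z ∈ Z, W z = 1) ∧ ∀ i, W (x i) = y i := by
  let gen : ∀ i : Fin k, Monoid.CoprodI (fun i : Fin k => Multiplicative (ZMod (p i))) :=
    fun i => Monoid.CoprodI.of (M := fun i : Fin k => Multiplicative (ZMod (p i))) (i := i)
      (Multiplicative.ofAdd (1 : ZMod (p i)))
  have hx : ∀ i, ∃ x : Γ, QuotientGroup.mk' Z x = E.symm (gen i) := fun i =>
    QuotientGroup.mk'_surjective Z _
  choose x hx using hx
  refine ⟨x, fun i => ?_, ?_, ?_⟩
  · rw [← QuotientGroup.ker_mk' Z, MonoidHom.mem_ker, map_pow, hx, ← map_pow]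
    have h1 : gen i ^ p i = 1 := by
      show (Monoid.CoprodI.of (M := fun i : Fin k => Multiplicative (ZMod (p i))) (i := i)
      (Multiplicative.ofAdd (1 : ZMod (p i)))) ^ p i = 1
      rw [← map_pow, lft_pow, map_one]
    rw [h1, map_one]
  · set H := Subgroup.closure ((Z : Set Γ) ∪ Set.range x) with hH
    have hZH : Z ≤ H := fun z hz => Subgroup.subset_closure (Or.inl hz)
    have hxH : ∀ i, x i ∈ H := fun i => Subgroup.subset_closure (Or.inr ⟨i, rfl⟩)
    have key : ∀ w : Monoid.CoprodI (fun i : Fin k => Multiplicative (ZMod (p i))),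
        E.symm w ∈ H.map (QuotientGroup.mk' Z) := by
      intro w
      induction w using Monoid.CoprodI.induction_on with
      | one =>
        rw [map_one]
        exact one_mem _
      | of i a =>
        obtain ⟨z, hz⟩ := lft_zpow (p i) a
        rw [hz, map_zpow, map_zpow]
        refine zpow_mem ?_ z
        have h2 : E.symm (Monoid.CoprodI.of (M := fun i : Fin k => Multiplicative (ZMod (p i))) (i := i)
      (Multiplicative.ofAdd (1 : ZMod (p i)))) =
            QuotientGroup.mk' Z (x i) := (hx i).symm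
        rw [h2]
        exact Subgroup.mem_map_of_mem _ (hxH i)
      | mul a b ha hb =>
        rw [map_mul]
        exact mul_mem ha hb
    rw [eq_top_iff]
    intro g _
    have h3 := key (E (QuotientGroup.mk' Z g))
    rw [MulEquiv.symm_apply_apply, Subgroup.mem_map] at h3
    obtain ⟨h, hh, hg⟩ := h3
    have h4 : h⁻¹ * g ∈ Z := by
      rw [← QuotientGroup.ker_mk' Z, MonoidHom.mem_ker, map_mul, map_inv, hg, inv_mul_cancel]
    have h5 := mul_mem hh (hZH h4)
    rwa [mul_inv_cancel_left] at h5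
  · intro G _ y hy
    choose φ hφ using fun i => lft_hom (p i) (y i) (hy i)
    refine ⟨((Monoid.CoprodI.lift φ).comp E.toMonoidHom).comp (QuotientGroup.mk' Z),
      fun z hz => ?_, fun i => ?_⟩
    · have h1 : QuotientGroup.mk' Z z = 1 := by
        rw [← MonoidHom.mem_ker, QuotientGroup.ker_mk' Z]
        exact hz
      rw [MonoidHom.comp_apply, h1, map_one]
    · rw [MonoidHom.comp_apply, hx, MonoidHom.comp_apply]
      have h2 : E.toMonoidHom (E.symm (gen i)) = gen i := E.apply_symm_apply _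
      rw [h2]
      show Monoid.CoprodI.lift φ (Monoid.CoprodI.of (i := i)
        (Multiplicative.ofAdd (1 : ZMod (p i)))) = y i
      rw [Monoid.CoprodI.lift_of, hφ]

end P002
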