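import Mathlib
import Vale.Agent.Lib.P002.Dec

open Matrix

namespace P002

variable {Γ : Type} [Group Γ]

/-- All matrix entries of a family of matrices. -/
def ent {r : ℕ} (σ : Γ → Matrix (Fin r) (Fin r) ℂ) : Γ × Fin r × Fin r → ℂ :=
  fun y => σ y.1 y.2.1 y.2.2

section rep0

variable {r n : ℕ} {m : Fin n → ℕ} (ε : (Σ j, Fin (m j)) ≃ Fin r)

/-- The direct sum of the `θ j • W j`. -/
noncomputable def bl (θ : Fin n → (Γ →* ℂˣ)) (W : ∀ j, Γ →* (Matrix (Fin (m j)) (Fin (m j)) ℂ)ˣ)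
    (γ : Γ) : Matrix (Fin r) (Fin r) ℂ :=
  blk ε (fun j => (θ j γ : ℂ) • (W j γ : Matrix (Fin (m j)) (Fin (m j)) ℂ))

theorem bl_det (θ : Fin n → (Γ →* ℂˣ)) (W : ∀ j, Γ →* (Matrix (Fin (m j)) (Fin (m j)) ℂ)ˣ)
    (γ : Γ) : (bl ε θ W γ).det = ((∏ j, θ j γ ^ m j * dt (W j γ) : ℂˣ) : ℂ) := by
  unfold bl
  rw [det_blk, Units.coe_prod]
  refine Finset.prod_congr rfl fun j _ => ?_
  rw [Matrix.det_smul, Fintype.card_fin, Units.val_mul, Units.val_pow_eq_pow_val, dt_coe]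

/-- The direct sum of the `θ j • W j`, as a representation. -/
noncomputable def rep0 (θ : Fin n → (Γ →* ℂˣ))
    (W : ∀ j, Γ →* (Matrix (Fin (m j)) (Fin (m j)) ℂ)ˣ)
    (hdet : ∀ γ, ∏ j, θ j γ ^ m j * dt (W j γ) = 1) : Γ →* SpecialLinearGroup (Fin r) ℂ where
  toFun γ := ⟨bl ε θ W γ, by rw [bl_det, hdet γ]; rfl⟩
  map_one' := by
    apply Subtype.ext
    show bl ε θ W 1 = 1
    unfold bl
    rw [← blk_one ε]
    congr 1
    funext j
    simp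
  map_mul' a b := by
    apply Subtype.ext
    show bl ε θ W (a * b) = bl ε θ W a * bl ε θ W b
    unfold bl
    rw [← blk_mul]
    congr 1
    funext j
    rw [map_mul, map_mul, Units.val_mul, Units.val_mul, smul_mul_smul_comm]

end rep0

theorem exists_sl_conj {r : ℕ} (hr : 0 < r) (P Q : Matrix (Fin r) (Fin r) ℂ) (hPQ : P * Q = 1) :
    ∃ g : SpecialLinearGroup (Fin r) ℂ, ∀ A : Matrix (Fin r) (Fin r) ℂ,
      P * A * Q = (g : Matrix (Fin r) (Fin r) ℂ) * A *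
        ((g⁻¹ : SpecialLinearGroup (Fin r) ℂ) : Matrix (Fin r) (Fin r) ℂ) := by
  have hd : P.det * Q.det = 1 := by rw [← Matrix.det_mul, hPQ, Matrix.det_one]
  obtain ⟨t, ht⟩ := IsAlgClosed.exists_pow_nat_eq Q.det hr
  have ht0 : t ≠ 0 := by
    rintro rfl
    rw [zero_pow hr.ne'] at ht
    rw [← ht, mul_zero] at hd
    exact zero_ne_one hd
  let g : SpecialLinearGroup (Fin r) ℂ := ⟨t • P, by
    rw [Matrix.det_smul, Fintype.card_fin, ht, mul_comm, hd]⟩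
  have hg : (g : Matrix (Fin r) (Fin r) ℂ) = t • P := rfl
  have hgi : ((g⁻¹ : SpecialLinearGroup (Fin r) ℂ) : Matrix (Fin r) (Fin r) ℂ) = t⁻¹ • Q := by
    have h1 : (g : Matrix (Fin r) (Fin r) ℂ) * (t⁻¹ • Q) = 1 := by
      rw [hg, smul_mul_smul_comm, mul_inv_cancel₀ ht0, one_smul, hPQ]
    have h2 : ((g⁻¹ : SpecialLinearGroup (Fin r) ℂ) : Matrix (Fin r) (Fin r) ℂ)
        * (g : Matrix (Fin r) (Fin r) ℂ) = 1 := by
      rw [← Matrix.SpecialLinearGroup.coe_mul, inv_mul_cancel, Matrix.SpecialLinearGroup.coe_one]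
    calc ((g⁻¹ : SpecialLinearGroup (Fin r) ℂ) : Matrix (Fin r) (Fin r) ℂ)
        = ((g⁻¹ : SpecialLinearGroup (Fin r) ℂ) : Matrix (Fin r) (Fin r) ℂ)
          * ((g : Matrix (Fin r) (Fin r) ℂ) * (t⁻¹ • Q)) := by rw [h1, mul_one]
      _ = t⁻¹ • Q := by rw [← mul_assoc, h2, one_mul]
  refine ⟨g, fun A => ?_⟩
  rw [hgi, hg]
  simp [smul_smul, ht0]

theorem irred_smul {m : ℕ} {σ τ : Γ → Matrix (Fin m) (Fin m) ℂ} (c : Γ → ℂ) (hc : ∀ γ, c γ ≠ 0)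
    (h : ∀ γ, τ γ = c γ • σ γ) (hσ : Irred σ) : Irred τ := by
  refine ⟨hσ.1, fun V hV => hσ.2 V ?_⟩
  intro γ w hw
  have h1 := hV γ w hw
  rw [h γ, Matrix.smul_mulVec] at h1
  have h2 := V.smul_mem (c γ)⁻¹ h1
  rwa [smul_smul, inv_mul_cancel₀ (hc γ), one_smul] at h2

theorem blk_ent {r n : ℕ} {m : Fin n → ℕ} (ε : (Σ j, Fin (m j)) ≃ Fin r) (O : Subring ℂ)
    (A : ∀ j, Matrix (Fin (m j)) (Fin (m j)) ℂ) (hA : ∀ j a b, A j a b ∈ O) (a b : Fin r) :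
    blk ε A a b ∈ O := by
  unfold blk
  simp only [Matrix.reindex_apply, Matrix.submatrix_apply]
  obtain ⟨j, a'⟩ := ε.symm a
  obtain ⟨j', b'⟩ := ε.symm b
  by_cases h : j = j'
  · subst h
    rw [Matrix.blockDiagonal'_apply_eq]
    exact hA j a' b'
  · rw [Matrix.blockDiagonal'_apply_ne _ _ _ h]
    exact O.zero_mem

/-- The ring of algebraic integers in `L`. -/
noncomputable def OL (L : IntermediateField ℚ ℂ) : Subring ℂ :=
  L.toSubfield.toSubring ⊓ (integralClosure ℤ ℂ).toSubring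

theorem mem_OL {L : IntermediateField ℚ ℂ} {x : ℂ} : x ∈ OL L ↔ x ∈ L ∧ IsIntegral ℤ x := Iff.rfl

/-- The unit group of a subring. -/
def UO (O : Subring ℂ) : Subgroup ℂˣ where
  carrier := {x | (x : ℂ) ∈ O ∧ ((x⁻¹ : ℂˣ) : ℂ) ∈ O}
  mul_mem' := by
    rintro a b ⟨ha, ha'⟩ ⟨hb, hb'⟩
    refine ⟨?_, ?_⟩
    · rw [Units.val_mul]
      exact O.mul_mem ha hb
    · rw [_root_.mul_inv_rev, Units.val_mul]
      exact O.mul_mem hb' ha'
  one_mem' := by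
    refine ⟨O.one_mem, ?_⟩
    rw [inv_one]
    exact O.one_mem
  inv_mem' := by
    rintro a ⟨ha, ha'⟩
    exact ⟨ha', by rwa [inv_inv]⟩

theorem root_mem {L : IntermediateField ℚ ℂ} {N : ℕ} (hL : ∀ x : ℂ, x ^ N = 1 → x ∈ L)
    {q : ℕ} (hq : 0 < q) (hqN : q ∣ N) {x : ℂ} (hx : x ^ q = 1) : x ∈ OL L := by
  refine mem_OL.mpr ⟨hL x ?_, ?_⟩
  · obtain ⟨t, rfl⟩ := hqN
    rw [pow_mul, hx, one_pow]
  · refine IsIntegral.of_pow hq ?_
    rw [hx]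
    exact isIntegral_one

theorem unif {α : Type} (T : Finset α) (P : α → ℕ → Prop)
    (hdiv : ∀ a q q', q ∣ q' → 0 < q' → P a q → P a q')
    (h : ∀ a ∈ T, ∃ q, 0 < q ∧ P a q) : ∃ E, 0 < E ∧ ∀ a ∈ T, P a E := by
  classical
  induction T using Finset.induction_on with
  | empty => exact ⟨1, one_pos, fun a ha => absurd ha (Finset.notMem_empty a)⟩
  | insert a T ha ih =>
    obtain ⟨E, hE, hE'⟩ := ih (fun b hb => h b (Finset.mem_insert_of_mem hb))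
    obtain ⟨q, hq, hq'⟩ := h a (Finset.mem_insert_self a T)
    refine ⟨E * q, Nat.mul_pos hE hq, fun b hb => ?_⟩
    rcases Finset.mem_insert.mp hb with rfl | hb
    · exact hdiv _ q _ (dvd_mul_left q E) (Nat.mul_pos hE hq) hq'
    · exact hdiv b E _ (dvd_mul_right E q) (Nat.mul_pos hE hq) (hE' b hb)

end P002
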