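import Mathlib
import Vale.Agent.Lib.P002.Defs

open Matrix

namespace P002

section

variable {ι : Type} {m : ι → ℕ}

private theorem sl_left (g : ∀ i, SpecialLinearGroup (Fin (m i)) ℂ)
    (F : (∀ i, SpecialLinearGroup (Fin (m i)) ℂ) → ℂ) (hF : F ∈ polyAlg m) :
    (fun h => F (g * h)) ∈ polyAlg m := by
  unfold polyAlg at hF
  induction hF using Algebra.adjoin_induction with
  | mem F hF =>
    obtain ⟨⟨i, k, l⟩, rfl⟩ := hF
    have h1 : (fun h : ∀ i, SpecialLinearGroup (Fin (m i)) ℂ =>
        ((g * h) i : Matrix (Fin (m i)) (Fin (m i)) ℂ) k l) =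
        ∑ c, (g i : Matrix (Fin (m i)) (Fin (m i)) ℂ) k c •
          (fun h : ∀ i, SpecialLinearGroup (Fin (m i)) ℂ =>
            (h i : Matrix (Fin (m i)) (Fin (m i)) ℂ) c l) := by
      funext h
      rw [Pi.mul_apply, Matrix.SpecialLinearGroup.coe_mul, Matrix.mul_apply, Finset.sum_apply]
      rfl
    show (fun h : ∀ i, SpecialLinearGroup (Fin (m i)) ℂ =>
        ((g * h) i : Matrix (Fin (m i)) (Fin (m i)) ℂ) k l) ∈ polyAlg m
    rw [h1]
    refine Subalgebra.sum_mem _ fun c _ => Subalgebra.smul_mem _ ?_ _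
    exact Algebra.subset_adjoin ⟨⟨i, c, l⟩, rfl⟩
  | algebraMap r => exact Subalgebra.algebraMap_mem _ r
  | add F G _ _ h1 h2 => exact Subalgebra.add_mem _ h1 h2
  | mul F G _ _ h1 h2 => exact Subalgebra.mul_mem _ h1 h2

private theorem sl_right (g : ∀ i, SpecialLinearGroup (Fin (m i)) ℂ)
    (F : (∀ i, SpecialLinearGroup (Fin (m i)) ℂ) → ℂ) (hF : F ∈ polyAlg m) :
    (fun h => F (h * g)) ∈ polyAlg m := by
  unfold polyAlg at hF
  induction hF using Algebra.adjoin_induction with
  | mem F hF =>
    obtain ⟨⟨i, k, l⟩, rfl⟩ := hF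
    have h1 : (fun h : ∀ i, SpecialLinearGroup (Fin (m i)) ℂ =>
        ((h * g) i : Matrix (Fin (m i)) (Fin (m i)) ℂ) k l) =
        ∑ c, (g i : Matrix (Fin (m i)) (Fin (m i)) ℂ) c l •
          (fun h : ∀ i, SpecialLinearGroup (Fin (m i)) ℂ =>
            (h i : Matrix (Fin (m i)) (Fin (m i)) ℂ) k c) := by
      funext h
      rw [Pi.mul_apply, Matrix.SpecialLinearGroup.coe_mul, Matrix.mul_apply, Finset.sum_apply]
      refine Finset.sum_congr rfl fun c _ => ?_
      exact mul_comm _ _
    show (fun h : ∀ i, SpecialLinearGroup (Fin (m i)) ℂ =>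
        ((h * g) i : Matrix (Fin (m i)) (Fin (m i)) ℂ) k l) ∈ polyAlg m
    rw [h1]
    refine Subalgebra.sum_mem _ fun c _ => Subalgebra.smul_mem _ ?_ _
    exact Algebra.subset_adjoin ⟨⟨i, k, c⟩, rfl⟩
  | algebraMap r => exact Subalgebra.algebraMap_mem _ r
  | add F G _ _ h1 h2 => exact Subalgebra.add_mem _ h1 h2
  | mul F G _ _ h1 h2 => exact Subalgebra.mul_mem _ h1 h2

/-- along a one-parameter group of transvections a polynomial function is a polynomial -/
private theorem sl_line [DecidableEq ι] (i : ι) {a b : Fin (m i)} (hab : a ≠ b)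
    (F : (∀ i, SpecialLinearGroup (Fin (m i)) ℂ) → ℂ) (hF : F ∈ polyAlg m) :
    ∃ p : Polynomial ℂ, ∀ t : ℂ,
      F (Pi.mulSingle i (Matrix.SpecialLinearGroup.transvection hab t)) = p.eval t := by
  unfold polyAlg at hF
  induction hF using Algebra.adjoin_induction with
  | mem F hF =>
    obtain ⟨⟨i', k, l⟩, rfl⟩ := hF
    by_cases hi : i' = i
    · subst hi
      refine ⟨Polynomial.C ((1 : Matrix (Fin (m i')) (Fin (m i')) ℂ) k l) +
        (if a = k ∧ b = l then Polynomial.X else 0), fun t => ?_⟩
      show ((Pi.mulSingle i' (Matrix.SpecialLinearGroup.transvection hab t) :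
        ∀ i, SpecialLinearGroup (Fin (m i)) ℂ) i' : Matrix (Fin (m i')) (Fin (m i')) ℂ) k l = _
      rw [Pi.mulSingle_eq_same, Matrix.SpecialLinearGroup.transvection_coe, Matrix.add_apply,
        Matrix.single_apply, Polynomial.eval_add, Polynomial.eval_C]
      congr 1
      split_ifs <;> simp
    · refine ⟨Polynomial.C ((1 : Matrix (Fin (m i')) (Fin (m i')) ℂ) k l), fun t => ?_⟩
      show ((Pi.mulSingle i (Matrix.SpecialLinearGroup.transvection hab t) :
        ∀ i, SpecialLinearGroup (Fin (m i)) ℂ) i' : Matrix (Fin (m i')) (Fin (m i')) ℂ) k l = _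
      rw [Pi.mulSingle_eq_of_ne hi, Polynomial.eval_C]
      rfl
  | algebraMap r => exact ⟨Polynomial.C r, fun t => by rw [Polynomial.eval_C]; rfl⟩
  | add F G _ _ h1 h2 =>
    obtain ⟨p, hp⟩ := h1
    obtain ⟨q, hq⟩ := h2
    exact ⟨p + q, fun t => by rw [Polynomial.eval_add, ← hp, ← hq]; rfl⟩
  | mul F G _ _ h1 h2 =>
    obtain ⟨p, hp⟩ := h1
    obtain ⟨q, hq⟩ := h2
    exact ⟨p * q, fun t => by rw [Polynomial.eval_mul, ← hp, ← hq]; rfl⟩

end

private theorem sl_poly_zero (p : Polynomial ℂ) (h : ∀ z : ℤ, p.eval (z : ℂ) = 0) : p = 0 := by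
  refine Polynomial.eq_zero_of_infinite_isRoot p ?_
  refine (Set.infinite_range_of_injective (Int.cast_injective (α := ℂ))).mono ?_
  rintro _ ⟨z, rfl⟩
  exact h z

private theorem sl_whitehead {n : ℕ} {i j : Fin n} (hij : i ≠ j) (a : ℂ) (ha : a ≠ 0) :
    Matrix.SpecialLinearGroup.diag2n hij a ha =
      Matrix.SpecialLinearGroup.transvection hij a * (Matrix.SpecialLinearGroup.transvection hij.symm (-a⁻¹) *
      (Matrix.SpecialLinearGroup.transvection hij a * (Matrix.SpecialLinearGroup.transvection hij (-1) *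
      (Matrix.SpecialLinearGroup.transvection hij.symm 1 *
      (Matrix.SpecialLinearGroup.transvection hij (-1) * 1))))) := by
  apply Subtype.ext
  simp only [Matrix.SpecialLinearGroup.coe_mul, Matrix.SpecialLinearGroup.coe_one]
  rw [Matrix.SpecialLinearGroup.diag2n_coe]
  show _ = Matrix.transvection i j a * (Matrix.transvection j i (-a⁻¹) *
    (Matrix.transvection i j a * (Matrix.transvection i j (-1) *
    (Matrix.transvection j i 1 * (Matrix.transvection i j (-1) * 1)))))
  ext k l
  by_cases hki : k = i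
  · subst hki
    simp only [Matrix.transvection_mul_apply_same,
      Matrix.transvection_mul_apply_of_ne _ _ _ _ hij,
      Matrix.transvection_mul_apply_of_ne _ _ _ _ hij.symm]
    rw [Matrix.diagonal_apply, if_pos rfl, Matrix.one_apply, Matrix.one_apply]
    split_ifs <;> (try field_simp) <;> (try ring)
  · by_cases hkj : k = j
    · subst hkj
      simp only [Matrix.transvection_mul_apply_same,
        Matrix.transvection_mul_apply_of_ne _ _ _ _ hij,
        Matrix.transvection_mul_apply_of_ne _ _ _ _ hij.symm]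
      rw [Matrix.diagonal_apply, if_neg hki, if_pos rfl, Matrix.one_apply, Matrix.one_apply]
      split_ifs <;> (try field_simp) <;> (try ring)
    · simp only [Matrix.transvection_mul_apply_of_ne _ _ _ _ hki,
        Matrix.transvection_mul_apply_of_ne _ _ _ _ hkj]
      rw [Matrix.diagonal_apply, if_neg hki, if_neg hkj, Matrix.one_apply]

private theorem sl_map_trans {n : ℕ} {i j : Fin n} (hij : i ≠ j) (z : ℤ) :
    Matrix.SpecialLinearGroup.map (Int.castRingHom ℂ) (Matrix.SpecialLinearGroup.transvection hij z) =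
      Matrix.SpecialLinearGroup.transvection hij (z : ℂ) := by
  ext k l
  simp only [Matrix.SpecialLinearGroup.map_apply_coe, Matrix.SpecialLinearGroup.transvection_coe,
    RingHom.mapMatrix_apply, Matrix.map_apply, Matrix.add_apply, Matrix.single_apply,
    Matrix.one_apply]
  split_ifs <;> simp

/-- Polynomial functions on a finite product of special linear groups which vanish on the
integral points vanish. (SL_m(ℂ) is generated by transvections; the Zariski closure of the
integral points is a submonoid and contains all transvections.) -/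
theorem sl_dense {ι : Type} [Fintype ι] [DecidableEq ι] (m : ι → ℕ)
    (F : (∀ i, SpecialLinearGroup (Fin (m i)) ℂ) → ℂ) (hF : F ∈ polyAlg m)
    (h0 : ∀ h : ∀ i, SpecialLinearGroup (Fin (m i)) ℤ,
      F (fun i => Matrix.SpecialLinearGroup.map (Int.castRingHom ℂ) (h i)) = 0) :
    ∀ h, F h = 0 := by
  obtain ⟨S, hS⟩ : ∃ S : Set (∀ i, SpecialLinearGroup (Fin (m i)) ℂ), S = {h | ∀ F ∈ polyAlg m,
    (∀ z : ∀ i, SpecialLinearGroup (Fin (m i)) ℤ,
      F (fun i => Matrix.SpecialLinearGroup.map (Int.castRingHom ℂ) (z i)) = 0) → F h = 0} := ⟨_, rfl⟩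
  have hmem : ∀ h, h ∈ S ↔ ∀ F ∈ polyAlg m, (∀ z : ∀ i, SpecialLinearGroup (Fin (m i)) ℤ,
      F (fun i => Matrix.SpecialLinearGroup.map (Int.castRingHom ℂ) (z i)) = 0) → F h = 0 := by
    intro h
    rw [hS]
    rfl
  suffices hall : ∀ h, h ∈ S from fun h => (hmem h).1 (hall h) F hF h0
  have h1 : (1 : ∀ i, SpecialLinearGroup (Fin (m i)) ℂ) ∈ S := by
    rw [hmem]
    intro F _ hz
    have := hz 1
    have h2 : (fun i => Matrix.SpecialLinearGroup.map (Int.castRingHom ℂ)
        ((1 : ∀ i, SpecialLinearGroup (Fin (m i)) ℤ) i)) = 1 := by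
      funext i
      rw [Pi.one_apply, map_one]
      rfl
    rwa [h2] at this
  -- left multiplication by integral points
  have hleft : ∀ (z : ∀ i, SpecialLinearGroup (Fin (m i)) ℤ), ∀ s ∈ S,
      (fun i => Matrix.SpecialLinearGroup.map (Int.castRingHom ℂ) (z i)) * s ∈ S := by
    intro z s hs
    rw [hmem] at hs ⊢
    intro F hF hz
    refine hs _ (sl_left (fun i => Matrix.SpecialLinearGroup.map (Int.castRingHom ℂ) (z i)) F hF)
      fun z' => ?_
    have := hz (z * z')
    have h2 : (fun i => Matrix.SpecialLinearGroup.map (Int.castRingHom ℂ) ((z * z') i)) =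
        (fun i => Matrix.SpecialLinearGroup.map (Int.castRingHom ℂ) (z i)) *
          (fun i => Matrix.SpecialLinearGroup.map (Int.castRingHom ℂ) (z' i)) := by
      funext i
      rw [Pi.mul_apply, map_mul]
      rfl
    rwa [h2] at this
  have hmul : ∀ s ∈ S, ∀ t ∈ S, s * t ∈ S := by
    intro s hs t ht
    rw [hmem]
    intro F hF hz
    refine (hmem s).1 hs _ (sl_right t F hF) fun z => ?_
    exact (hmem _).1 (hleft z t ht) F hF hz
  have htrans : ∀ (i : ι) {a b : Fin (m i)} (hab : a ≠ b) (t : ℂ),
      Pi.mulSingle i (Matrix.SpecialLinearGroup.transvection hab t) ∈ S := by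
    intro i a b hab t
    rw [hmem]
    intro F hF hz
    obtain ⟨p, hp⟩ := sl_line i hab F hF
    have hp0 : p = 0 := by
      refine sl_poly_zero p fun z => ?_
      rw [← hp]
      have := hz (Pi.mulSingle i (Matrix.SpecialLinearGroup.transvection hab z))
      have h2 : (fun i' => Matrix.SpecialLinearGroup.map (Int.castRingHom ℂ)
          ((Pi.mulSingle i (Matrix.SpecialLinearGroup.transvection hab z) :
            ∀ i, SpecialLinearGroup (Fin (m i)) ℤ) i')) =
          Pi.mulSingle i (Matrix.SpecialLinearGroup.transvection hab (z : ℂ)) := by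
        funext i'
        by_cases hi : i' = i
        · subst hi
          rw [Pi.mulSingle_eq_same, Pi.mulSingle_eq_same, sl_map_trans]
        · rw [Pi.mulSingle_eq_of_ne hi, Pi.mulSingle_eq_of_ne hi, map_one]
      rwa [h2] at this
    rw [hp, hp0, Polynomial.eval_zero]
  have hsingle : ∀ (i : ι) (g : SpecialLinearGroup (Fin (m i)) ℂ), Pi.mulSingle i g ∈ S := by
    intro i g
    have hm2 : ∀ A B : SpecialLinearGroup (Fin (m i)) ℂ, Pi.mulSingle i A ∈ S →
        Pi.mulSingle i B ∈ S → Pi.mulSingle i (A * B) ∈ S := by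
      intro A B hA hB
      rw [Pi.mulSingle_mul]
      exact hmul _ hA _ hB
    rcases subsingleton_or_nontrivial (Fin (m i)) with hs | hs
    · have h2 : g = 1 := by
        ext k l
        have hdet := g.2
        obtain rfl : k = l := Subsingleton.elim _ _
        rw [Matrix.SpecialLinearGroup.coe_one, Matrix.one_apply_eq]
        rw [Matrix.det_eq_elem_of_subsingleton _ k] at hdet
        exact hdet
      rw [h2, Pi.mulSingle_one]
      exact h1
    · refine Matrix.SpecialLinearGroup.diagonal_transvection_induction'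
        (fun g => Pi.mulSingle i g ∈ S) g ?_ (fun a b hab t => htrans i hab t) hm2
      intro a b hab c hc
      show Pi.mulSingle i (Matrix.SpecialLinearGroup.diag2n hab c hc) ∈ S
      rw [sl_whitehead hab c hc]
      refine hm2 _ _ (htrans i hab c) (hm2 _ _ (htrans i hab.symm _) (hm2 _ _ (htrans i hab c)
        (hm2 _ _ (htrans i hab _) (hm2 _ _ (htrans i hab.symm _) (hm2 _ _ (htrans i hab _) ?_)))))
      rw [Pi.mulSingle_one]
      exact h1
  intro h
  have hfin : ∀ s : Finset ι, (fun i => if i ∈ s then h i else 1) ∈ S := by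
    intro s
    induction s using Finset.induction_on with
    | empty =>
      have h2 : (fun i => if i ∈ (∅ : Finset ι) then h i else 1) = 1 := by
        funext i
        simp
      rw [h2]
      exact h1
    | insert a s ha ih =>
      have h2 : (fun i => if i ∈ insert a s then h i else 1) =
          Pi.mulSingle a (h a) * (fun i => if i ∈ s then h i else 1) := by
        funext i
        rw [Pi.mul_apply]
        by_cases hi : i = a
        · subst hi
          rw [Pi.mulSingle_eq_same, if_pos (Finset.mem_insert_self _ _), if_neg ha, mul_one]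
        · rw [Pi.mulSingle_eq_of_ne hi, one_mul]
          simp [hi]
      rw [h2]
      exact hmul _ (hsingle a (h a)) _ ih
  have h3 := hfin Finset.univ
  have h4 : (fun i => if i ∈ (Finset.univ : Finset ι) then h i else 1) = h := by
    funext i
    rw [if_pos (Finset.mem_univ i)]
  rwa [h4] at h3

end P002
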