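import Mathlib
import Vale.Agent.Lib.P002.Defs

open Matrix

namespace P002

variable {Γ : Type} [Group Γ]

private theorem Sum_blk_apply {r n : ℕ} {m : Fin n → ℕ} (ε : (Σ j, Fin (m j)) ≃ Fin r)
    (A : ∀ j, Matrix (Fin (m j)) (Fin (m j)) ℂ) (x : Fin r → ℂ) (j : Fin n) (i : Fin (m j)) :
    (blk ε A).mulVec x (ε ⟨j, i⟩) = (A j).mulVec (fun l => x (ε ⟨j, l⟩)) i := by
  unfold blk Matrix.mulVec dotProduct
  rw [← ε.sum_comp, Fintype.sum_sigma, Finset.sum_eq_single j]
  · refine Finset.sum_congr rfl fun l _ => ?_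
    simp [Matrix.reindex_apply, Matrix.submatrix_apply, Matrix.blockDiagonal'_apply_eq]
  · intro k _ hk
    refine Finset.sum_eq_zero fun l _ => ?_
    simp only [Matrix.reindex_apply, Matrix.submatrix_apply, Equiv.symm_apply_apply]
    rw [Matrix.blockDiagonal'_apply_ne _ _ _ (Ne.symm hk), zero_mul]
  · intro h
    exact absurd (Finset.mem_univ j) h

/-- the sum of the coordinate blocks in `J` -/
private def Sum_V {r n : ℕ} {m : Fin n → ℕ} (ε : (Σ j, Fin (m j)) ≃ Fin r)
    (J : Finset (Fin n)) : Submodule ℂ (Fin r → ℂ) where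
  carrier := {x | ∀ j, j ∉ J → ∀ i, x (ε ⟨j, i⟩) = 0}
  add_mem' := fun {x y} hx hy j hj i => by
    rw [Pi.add_apply, hx j hj i, hy j hj i, add_zero]
  zero_mem' := fun _ _ _ => rfl
  smul_mem' := fun c x hx j hj i => by
    rw [Pi.smul_apply, hx j hj i, smul_zero]

private theorem Sum_mem_V {r n : ℕ} {m : Fin n → ℕ} {ε : (Σ j, Fin (m j)) ≃ Fin r}
    {J : Finset (Fin n)} {x : Fin r → ℂ} :
    x ∈ Sum_V ε J ↔ ∀ j, j ∉ J → ∀ i, x (ε ⟨j, i⟩) = 0 := Iff.rfl

private theorem Sum_invt_V {r n : ℕ} {m : Fin n → ℕ} (ε : (Σ j, Fin (m j)) ≃ Fin r)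
    (τ : ∀ j, Γ →* Matrix (Fin (m j)) (Fin (m j)) ℂ) (J : Finset (Fin n)) :
    Invt (fun γ => blk ε (fun j => τ j γ)) (Sum_V ε J) := by
  intro γ x hx j hj i
  change (blk ε (fun j => τ j γ)).mulVec x (ε ⟨j, i⟩) = 0
  rw [Sum_blk_apply]
  have h : (fun l => x (ε ⟨j, l⟩)) = 0 := funext fun l => hx j hj l
  rw [h, Matrix.mulVec_zero]
  rfl

/-- A direct sum of irreducible representations is semisimple. -/
theorem semis_blocks {r n : ℕ} {m : Fin n → ℕ} (ε : (Σ j, Fin (m j)) ≃ Fin r)
    (τ : ∀ j, Γ →* Matrix (Fin (m j)) (Fin (m j)) ℂ) (hτ : ∀ j, Irred (τ j)) :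
    Semis (fun γ => blk ε (fun j => τ j γ)) := by
  classical
  intro W hW
  have h0 : (Finset.univ.filter fun J : Finset (Fin n) => W ⊓ Sum_V ε J = ⊥).Nonempty := by
    refine ⟨∅, Finset.mem_filter.2 ⟨Finset.mem_univ _, ?_⟩⟩
    rw [eq_bot_iff]
    rintro x ⟨-, hx⟩
    rw [Submodule.mem_bot]
    funext k
    have h1 := hx (ε.symm k).1 (Finset.notMem_empty _) (ε.symm k).2
    have h2 : ε ⟨(ε.symm k).1, (ε.symm k).2⟩ = k := ε.apply_symm_apply k
    rw [h2] at h1
    exact h1
  obtain ⟨J, hJ, hmax⟩ := Finset.exists_max_image _ Finset.card h0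
  have hJ0 : W ⊓ Sum_V ε J = ⊥ := (Finset.mem_filter.1 hJ).2
  refine ⟨Sum_V ε J, Sum_invt_V ε τ J, ⟨disjoint_iff.2 hJ0, codisjoint_iff.2 ?_⟩⟩
  have hsup : Invt (fun γ => blk ε (fun j => τ j γ)) (W ⊔ Sum_V ε J) := by
    intro γ x hx
    obtain ⟨w, hw, v, hv, rfl⟩ := Submodule.mem_sup.1 hx
    rw [Matrix.mulVec_add]
    exact Submodule.add_mem_sup (hW γ w hw) (Sum_invt_V ε τ J γ v hv)
  -- each block is contained in the sum
  have key : ∀ j, Sum_V ε {j} ≤ W ⊔ Sum_V ε J := by
    intro j
    set U : Submodule ℂ (Fin (m j) → ℂ) :=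
      ((W ⊔ Sum_V ε J) ⊓ Sum_V ε {j}).map (LinearMap.funLeft ℂ ℂ fun i => ε ⟨j, i⟩) with hU
    have hinj : ∀ x ∈ Sum_V ε {j}, (∀ i, x (ε ⟨j, i⟩) = 0) → x = 0 := by
      intro x hx hx0
      funext k
      have h2 : ε ⟨(ε.symm k).1, (ε.symm k).2⟩ = k := ε.apply_symm_apply k
      rw [← h2]
      generalize (ε.symm k) = p
      obtain ⟨a, b⟩ := p
      by_cases ha : a = j
      · subst ha
        exact hx0 b
      · exact hx a (fun h => ha (Finset.mem_singleton.1 h)) b
    have hUinv : Invt (τ j) U := by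
      rintro γ _ ⟨x, ⟨hx1, hx2⟩, rfl⟩
      refine ⟨(blk ε (fun j => τ j γ)).mulVec x, ⟨hsup γ x hx1, Sum_invt_V ε τ {j} γ x hx2⟩, ?_⟩
      funext i
      change (blk ε (fun j => τ j γ)).mulVec x (ε ⟨j, i⟩) = _
      rw [Sum_blk_apply]
      rfl
    rcases (hτ j).2 U hUinv with h1 | h1
    · -- contradiction with maximality unless `j ∈ J`
      have hbot : (W ⊔ Sum_V ε J) ⊓ Sum_V ε {j} = ⊥ := by
        rw [eq_bot_iff]
        intro x hx
        rw [Submodule.mem_bot]
        refine hinj x hx.2 fun i => ?_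
        have h2 : (LinearMap.funLeft ℂ ℂ fun i => ε ⟨j, i⟩) x ∈ U := Submodule.mem_map_of_mem hx
        rw [h1, Submodule.mem_bot] at h2
        exact congrFun h2 i
      by_cases hj : j ∈ J
      · refine le_trans ?_ le_sup_right
        intro x hx k hk i
        exact hx k (fun h => hk (by rwa [Finset.mem_singleton.1 h])) i
      · exfalso
        have h3 : W ⊓ Sum_V ε (insert j J) = ⊥ := by
          rw [eq_bot_iff]
          rintro x ⟨hxW, hxV⟩
          -- split off the block of `j`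
          set b : Fin r → ℂ := fun k => if (ε.symm k).1 = j then x k else 0 with hb
          have hbV : b ∈ Sum_V ε {j} := by
            intro k hk i
            rw [hb]
            simp only [Equiv.symm_apply_apply]
            exact if_neg fun h => hk (Finset.mem_singleton.2 h)
          have haV : x - b ∈ Sum_V ε J := by
            intro k hk i
            rw [Pi.sub_apply, hb]
            simp only [Equiv.symm_apply_apply]
            by_cases hkj : k = j
            · rw [if_pos hkj, sub_self]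
            · rw [if_neg hkj, sub_zero]
              exact hxV k (fun h => by
                rcases Finset.mem_insert.1 h with h | h
                · exact hkj h
                · exact hk h) i
          have hb2 : b ∈ W ⊔ Sum_V ε J := by
            have h4 : b = x - (x - b) := by abel
            rw [h4]
            exact Submodule.sub_mem _ (Submodule.mem_sup_left hxW)
              (Submodule.mem_sup_right haV)
          have hb0 : b = 0 := by
            have h5 : b ∈ (W ⊔ Sum_V ε J) ⊓ Sum_V ε {j} := ⟨hb2, hbV⟩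
            rw [hbot, Submodule.mem_bot] at h5
            exact h5
          rw [hb0, sub_zero] at haV
          have h6 : x ∈ W ⊓ Sum_V ε J := ⟨hxW, haV⟩
          rwa [hJ0] at h6
        have h4 := hmax (insert j J) (Finset.mem_filter.2 ⟨Finset.mem_univ _, h3⟩)
        rw [Finset.card_insert_of_notMem hj] at h4
        omega
    · intro x hx
      have h2 : (LinearMap.funLeft ℂ ℂ fun i => ε ⟨j, i⟩) x ∈ U := by
        rw [h1]
        exact Submodule.mem_top
      obtain ⟨y, ⟨hy1, hy2⟩, hy3⟩ := h2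
      have h3 : x - y = 0 := by
        refine hinj (x - y) (Submodule.sub_mem _ hx hy2) fun i => ?_
        rw [Pi.sub_apply, sub_eq_zero]
        exact (congrFun hy3 i).symm
      rw [sub_eq_zero.1 h3]
      exact hy1
  rw [eq_top_iff]
  intro x _
  have hx : x = ∑ j : Fin n, fun k => if (ε.symm k).1 = j then x k else 0 := by
    funext k
    rw [Finset.sum_apply, Finset.sum_ite_eq]
    simp
  rw [hx]
  refine Submodule.sum_mem _ fun j _ => key j ?_
  intro k hk i
  simp only [Equiv.symm_apply_apply]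
  exact if_neg fun h => hk (Finset.mem_singleton.2 h)

end P002
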