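import Mathlib
import Vale.Agent.Lib.P002.Pre
import Vale.Agent.Lib.P002.Sl
import Vale.Agent.Lib.P002.Ch
import Vale.Agent.Lib.P002.Blk
import Vale.Agent.Lib.P002.Sum

open Matrix

namespace P002

variable {Γ : Type} [Group Γ] {Z : Subgroup Γ} {k : ℕ} {p : Fin k → ℕ} (S : Gens Γ Z k p)

section core

variable {r n : ℕ} {m : Fin n → ℕ} (ε : (Σ j, Fin (m j)) ≃ Fin r)
variable (D : ∀ j : Fin n, Fin k → (Fin (m j) → ℂ)ˣ) (hD : ∀ j i, D j i ^ p i = 1)

/-- The family of unit parts. -/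
noncomputable def Wf (H : ∀ q : Fin k × Fin n, SpecialLinearGroup (Fin (m q.2)) ℂ) (j : Fin n) :
    Γ →* (Matrix (Fin (m j)) (Fin (m j)) ℂ)ˣ :=
  Wr S (D j) (hD j) (fun i => H (i, j))

/-- The subgroup on which the characters are prescribed. -/
def Nsub (m : Fin n → ℕ) {s : ℕ} (g : Fin s → Γ) : Subgroup (Fin n → Abelianization Γ) :=
  Subgroup.closure
    ({b | ∃ γ : Γ, b = fun j => (Abelianization.of γ) ^ m j} ∪
      {b | ∃ (j : Fin n) (t : Fin s),
        b = (Pi.mulSingle j (Abelianization.of (g t)) : Fin n → Abelianization Γ)})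

/-- The components of a character of the power of the abelianization. -/
noncomputable def th (ψ : (Fin n → Abelianization Γ) →* ℂˣ) (j : Fin n) : Γ →* ℂˣ :=
  ψ.comp ((MonoidHom.mulSingle (fun _ : Fin n => Abelianization Γ) j).comp Abelianization.of)

theorem th_apply (ψ : (Fin n → Abelianization Γ) →* ℂˣ) (j : Fin n) (γ : Γ) :
    th ψ j γ = ψ (Pi.mulSingle j (Abelianization.of γ)) := rfl

theorem prod_th (ψ : (Fin n → Abelianization Γ) →* ℂˣ) (γ : Γ) :
    ψ (fun j => (Abelianization.of γ) ^ m j) = ∏ j, th ψ j γ ^ m j := by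
  rw [← Finset.univ_prod_mulSingle (fun j => (Abelianization.of γ) ^ m j), map_prod]
  refine Finset.prod_congr rfl fun j _ => ?_
  show ψ (MonoidHom.mulSingle (fun _ : Fin n => Abelianization Γ) j
      ((Abelianization.of γ) ^ m j)) = (ψ (MonoidHom.mulSingle
        (fun _ : Fin n => Abelianization Γ) j (Abelianization.of γ))) ^ m j
  rw [map_pow (MonoidHom.mulSingle (fun _ : Fin n => Abelianization Γ) j), map_pow ψ]

/-- The character with given components. -/
noncomputable def psi (θ : Fin n → (Γ →* ℂˣ)) : (Fin n → Abelianization Γ) →* ℂˣ :=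
  ∏ j, (Abelianization.lift (θ j)).comp (Pi.evalMonoidHom (fun _ : Fin n => Abelianization Γ) j)

theorem th_psi (θ : Fin n → (Γ →* ℂˣ)) : th (psi θ) = θ := by
  funext j
  ext1 γ
  rw [th_apply]
  unfold psi
  rw [MonoidHom.finsetProd_apply, Finset.prod_eq_single j]
  · simp
  · intro j' _ hj'
    simp [Pi.mulSingle_eq_of_ne hj']
  · intro hj
    exact absurd (Finset.mem_univ j) hj

/-- Polynomial dependence of the direct sum on the parameters. -/
theorem Wf_poly (j : Fin n) (γ : Γ) (a b : Fin (m j)) :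
    (fun H : ∀ q : Fin k × Fin n, SpecialLinearGroup (Fin (m q.2)) ℂ =>
      (Wf S D hD H j γ : Matrix (Fin (m j)) (Fin (m j)) ℂ) a b)
      ∈ polyAlg (fun q : Fin k × Fin n => m q.2) := by
  have h1 := Wr_poly S (D j) (hD j) (polyAlg (fun q : Fin k × Fin n => m q.2))
    (fun H i => H (i, j)) (fun i => isPoly_iff.mpr fun a b =>
      Algebra.subset_adjoin ⟨⟨(i, j), (a, b)⟩, rfl⟩) γ
  exact isPoly_iff.mp h1 a b

theorem Phi_poly (θ : Fin n → (Γ →* ℂˣ)) (f : MvPolynomial (Γ × Fin r × Fin r) ℂ) :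
    (fun H : ∀ q : Fin k × Fin n, SpecialLinearGroup (Fin (m q.2)) ℂ =>
      MvPolynomial.eval (ent (bl ε θ (Wf S D hD H))) f)
      ∈ polyAlg (fun q : Fin k × Fin n => m q.2) := by
  refine eval_mem (fun y H => ent (bl ε θ (Wf S D hD H)) y) (fun y => ?_) f
  refine blk_mem ε (fun H j => (θ j y.1 : ℂ) •
    (Wf S D hD H j y.1 : Matrix (Fin (m j)) (Fin (m j)) ℂ)) (fun j a b => ?_) y.2.1 y.2.2
  exact (polyAlg (fun q : Fin k × Fin n => m q.2)).smul_mem (Wf_poly S D hD j y.1 a b)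
    (θ j y.1 : ℂ)

/-- Dependence on the characters. -/
theorem Phi_char (W : ∀ j, Γ →* (Matrix (Fin (m j)) (Fin (m j)) ℂ)ˣ)
    (f : MvPolynomial (Γ × Fin r × Fin r) ℂ) :
    ∃ (T : Finset (Fin n → Abelianization Γ)) (c : (Fin n → Abelianization Γ) → ℂ),
      ∀ ψ : (Fin n → Abelianization Γ) →* ℂˣ,
        MvPolynomial.eval (ent (bl ε (th ψ) W)) f = ∑ b ∈ T, c b * ((ψ b : ℂˣ) : ℂ) := by
  let χ : (Fin n → Abelianization Γ) →* (((Fin n → Abelianization Γ) →* ℂˣ) → ℂ) :=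
    { toFun := fun b ψ => ((ψ b : ℂˣ) : ℂ)
      map_one' := by funext ψ; simp
      map_mul' := fun a b => by funext ψ; simp }
  let L := MonoidAlgebra.lift ℂ (((Fin n → Abelianization Γ) →* ℂˣ) → ℂ)
    (Fin n → Abelianization Γ) χ
  have h1 : (fun ψ : (Fin n → Abelianization Γ) →* ℂˣ =>
      MvPolynomial.eval (ent (bl ε (th ψ) W)) f) ∈ L.range := by
    refine eval_mem (fun y ψ => ent (bl ε (th ψ) W) y) (fun y => ?_) f
    refine blk_mem ε (fun ψ j => (th ψ j y.1 : ℂ) •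
      (W j y.1 : Matrix (Fin (m j)) (Fin (m j)) ℂ)) (fun j a b => ?_) y.2.1 y.2.2
    refine ⟨MonoidAlgebra.single (Pi.mulSingle j (Abelianization.of y.1))
      ((W j y.1 : Matrix (Fin (m j)) (Fin (m j)) ℂ) a b), ?_⟩
    funext ψ
    simp only [L, AlgHom.toRingHom_eq_coe, RingHom.coe_coe, MonoidAlgebra.lift_single,
      Pi.smul_apply, Matrix.smul_apply, smul_eq_mul]
    rw [mul_comm]
    rfl
  obtain ⟨x, hx⟩ := h1
  refine ⟨x.coeff.support, fun b => x.coeff b, fun ψ => ?_⟩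
  have h2 := congrFun hx ψ
  simp only [L, AlgHom.toRingHom_eq_coe, RingHom.coe_coe] at h2
  rw [← h2, MonoidAlgebra.lift_apply]
  simp only [Finsupp.sum, Finset.sum_apply, Pi.smul_apply, smul_eq_mul]
  rfl

/-- The density statement for a fixed decomposition. -/
theorem core_density [Group.FG Γ] (hm : ∀ j, 0 < m j) {s : ℕ} (g : Fin s → Γ)
    (hg : ∀ t, g t ∈ Z) (e : ℕ) (q : ℕ) (hq : 0 < q)
    (hqc : ∀ U : Subgroup ℂˣ, (∀ x : ℂˣ, x ^ q = 1 → x ∈ U) →
      (∃ u ∈ U, ∀ k : ℕ, 0 < k → u ^ k ≠ 1) →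
      ∀ ψ : (Fin n → Abelianization Γ) →* ℂˣ, (∀ b ∈ Nsub m g, ψ b ^ (NN p * e) = 1) →
      ∀ (T : Finset (Fin n → Abelianization Γ)) (c : (Fin n → Abelianization Γ) → ℂ),
        (∀ ψ' : (Fin n → Abelianization Γ) →* ℂˣ, (∀ b, ψ' b ∈ U) →
          (∀ b ∈ Nsub m g, ψ' b = ψ b) → ∑ b ∈ T, c b * ((ψ' b : ℂˣ) : ℂ) = 0) →
        ∑ b ∈ T, c b * ((ψ b : ℂˣ) : ℂ) = 0)
    (L : IntermediateField ℚ ℂ) (hL : ∀ x : ℂ, x ^ (q * NN p) = 1 → x ∈ L)
    (hu : ∃ u : ℂˣ, (u : ℂ) ∈ L ∧ IsIntegral ℤ (u : ℂ) ∧ IsIntegral ℤ ((u⁻¹ : ℂˣ) : ℂ) ∧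
      ∀ k : ℕ, 0 < k → u ^ k ≠ 1)
    (θ : Fin n → (Γ →* ℂˣ))
    (H0 : ∀ q : Fin k × Fin n, SpecialLinearGroup (Fin (m q.2)) ℂ)
    (hirr : ∀ j, Irred (fun γ => (Wf S D hD H0 j γ : Matrix (Fin (m j)) (Fin (m j)) ℂ)))
    (hdet : ∀ γ, ∏ j, θ j γ ^ m j * dt (Wf S D hD H0 j γ) = 1)
    (he : ∀ j t, θ j (g t) ^ e = 1)
    (f : MvPolynomial (Γ × Fin r × Fin r) ℂ)
    (hf : ∀ R : Γ →* SpecialLinearGroup (Fin r) ℂ,
      Semis (fun γ => (R γ : Matrix (Fin r) (Fin r) ℂ)) →
      (∀ t, (R (g t) : Matrix (Fin r) (Fin r) ℂ) = bl ε θ (Wf S D hD H0) (g t)) →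
      (∀ γ a b, (R γ : Matrix (Fin r) (Fin r) ℂ) a b ∈ OL L) →
      MvPolynomial.eval (ent (fun γ => (R γ : Matrix (Fin r) (Fin r) ℂ))) f = 0) :
    MvPolynomial.eval (ent (bl ε θ (Wf S D hD H0))) f = 0 := by
  classical
  have hNN := NN_pos p
  -- Burnside
  have hbu : ∀ j, ∃ a : Fin (m j) × Fin (m j) → Γ,
      (Matrix.of (fun (x y : Fin (m j) × Fin (m j)) =>
        (Wf S D hD H0 j (a x) : Matrix (Fin (m j)) (Fin (m j)) ℂ) y.1 y.2)).det ≠ 0 :=
    fun j => burnside ((Units.coeHom (Matrix (Fin (m j)) (Fin (m j)) ℂ)).comp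
      (Wf S D hD H0 j)) (hirr j)
  choose a ha using hbu
  -- the discriminating polynomial
  let dq : (∀ q : Fin k × Fin n, SpecialLinearGroup (Fin (m q.2)) ℂ) → ℂ := fun H =>
    ∏ j, (Matrix.of (fun (x y : Fin (m j) × Fin (m j)) =>
        (Wf S D hD H j (a j x) : Matrix (Fin (m j)) (Fin (m j)) ℂ) y.1 y.2)).det
  have hdq : dq ∈ polyAlg (fun q : Fin k × Fin n => m q.2) := by
    have h1 : dq = ∏ j, (fun H => (Matrix.of (fun (x y : Fin (m j) × Fin (m j)) =>
        (Wf S D hD H j (a j x) : Matrix (Fin (m j)) (Fin (m j)) ℂ) y.1 y.2)).det) := by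
      funext H
      simp only [dq, Finset.prod_apply]
    rw [h1]
    refine Subalgebra.prod_mem _ fun j _ => ?_
    exact det_mem fun x y => Wf_poly S D hD j (a j x) y.1 y.2
  have hdq0 : dq H0 ≠ 0 := Finset.prod_ne_zero_iff.mpr fun j _ => ha j
  -- the unit group
  set U : Subgroup ℂˣ := UO (OL L) with hU
  have hUr : ∀ x : ℂˣ, x ^ q = 1 → x ∈ U := by
    intro x hx
    have h1 : (x : ℂ) ^ q = 1 := by rw [← Units.val_pow_eq_pow_val, hx]; rfl
    have h2 : ((x⁻¹ : ℂˣ) : ℂ) ^ q = 1 := by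
      rw [← Units.val_pow_eq_pow_val, inv_pow, hx, inv_one]; rfl
    exact ⟨root_mem hL hq (dvd_mul_right q _) h1, root_mem hL hq (dvd_mul_right q _) h2⟩
  have hUu : ∃ u ∈ U, ∀ k : ℕ, 0 < k → u ^ k ≠ 1 := by
    obtain ⟨u, hu1, hu2, hu3, hu4⟩ := hu
    refine ⟨u, ⟨mem_OL.mpr ⟨hu1, hu2⟩, mem_OL.mpr ⟨?_, hu3⟩⟩, hu4⟩
    rw [Units.val_inv_eq_inv_val]
    exact L.inv_mem hu1
  set ψ := psi θ with hψ
  have hth : th ψ = θ := th_psi θ
  obtain ⟨T, c, hTc⟩ := Phi_char (m := m) ε (Wf S D hD H0) f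
  rw [← hth, hTc ψ]
  refine hqc U hUr hUu ψ ?_ T c ?_
  · -- torsion on `Nsub`
    intro b hb
    have hle : Nsub m g ≤ ((powMonoidHom (NN p * e)).comp ψ).ker := by
      unfold Nsub
      rw [Subgroup.closure_le]
      rintro b (⟨γ, rfl⟩ | ⟨j, t, rfl⟩)
      · show ψ _ ^ (NN p * e) = 1
        rw [prod_th, hth, pow_mul]
        have h1 : (∏ j, θ j γ ^ m j) * ∏ j, dt (Wf S D hD H0 j γ) = 1 := by
          rw [← Finset.prod_mul_distrib]
          exact hdet γ
        have h2 : (∏ j, dt (Wf S D hD H0 j γ)) ^ NN p = 1 := by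
          rw [← Finset.prod_pow]
          exact Finset.prod_eq_one fun j _ => dt_pow S (D j) (hD j) _ γ
        have h3 : (∏ j, θ j γ ^ m j) ^ NN p = 1 := by
          have h4 := congrArg (fun x => x ^ NN p) h1
          simp only [mul_pow, one_pow, h2, mul_one] at h4
          exact h4
        rw [h3, one_pow]
      · show ψ _ ^ (NN p * e) = 1
        rw [← th_apply, hth, mul_comm, pow_mul, he j t, one_pow]
    exact hle hb
  · intro ψ' hψU hψN
    rw [← hTc ψ']
    have hθN : ∀ γ, ∏ j, th ψ' j γ ^ m j = ∏ j, θ j γ ^ m j := by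
      intro γ
      rw [← prod_th, hψN _ (Subgroup.subset_closure (Or.inl ⟨γ, rfl⟩)), prod_th, hth]
    have hθg : ∀ j t, th ψ' j (g t) = θ j (g t) := by
      intro j t
      rw [th_apply, hψN _ (Subgroup.subset_closure (Or.inr ⟨j, t, rfl⟩)), ← th_apply, hth]
    have hdet' : ∀ (H : ∀ q : Fin k × Fin n, SpecialLinearGroup (Fin (m q.2)) ℂ) (γ : Γ),
        ∏ j, th ψ' j γ ^ m j * dt (Wf S D hD H j γ) = 1 := by
      intro H γ
      rw [Finset.prod_mul_distrib, hθN γ, ← hdet γ, Finset.prod_mul_distrib]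
      congr 1
      exact Finset.prod_congr rfl fun j _ => dt_indep S (D j) (hD j) _ _ γ
    have key : ∀ H : ∀ q : Fin k × Fin n, SpecialLinearGroup (Fin (m q.2)) ℂ,
        MvPolynomial.eval (ent (bl ε (th ψ') (Wf S D hD H))) f * dq H = 0 := by
      refine sl_dense (fun q : Fin k × Fin n => m q.2) _
        (Subalgebra.mul_mem _ (Phi_poly S ε D hD (th ψ') f) hdq) ?_
      intro Hz
      set H : ∀ q : Fin k × Fin n, SpecialLinearGroup (Fin (m q.2)) ℂ :=
        fun i => SpecialLinearGroup.map (Int.castRingHom ℂ) (Hz i) with hH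
      show MvPolynomial.eval (ent (bl ε (th ψ') (Wf S D hD H))) f * dq H = 0
      by_cases hd0 : dq H = 0
      · rw [hd0, mul_zero]
      have hirr' : ∀ j, Irred (fun γ => (Wf S D hD H j γ : Matrix (Fin (m j)) (Fin (m j)) ℂ)) :=
        fun j => irred_of_det (hm j) _ (a j)
          (Finset.prod_ne_zero_iff.mp hd0 j (Finset.mem_univ j))
      let τ : ∀ j, Γ →* Matrix (Fin (m j)) (Fin (m j)) ℂ := fun j =>
        { toFun := fun γ => (th ψ' j γ : ℂ) • (Wf S D hD H j γ : Matrix (Fin (m j)) (Fin (m j)) ℂ)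
          map_one' := by simp
          map_mul' := fun x y => by
            rw [map_mul, map_mul, Units.val_mul, Units.val_mul, smul_mul_smul_comm] }
      have hτ : ∀ j, Irred (τ j) := fun j =>
        irred_smul (fun γ => (th ψ' j γ : ℂ)) (fun γ => (th ψ' j γ).ne_zero)
          (fun γ => rfl) (hirr' j)
      have hR := hf (rep0 ε (th ψ') (Wf S D hD H) (hdet' H)) ?_ ?_ ?_
      · rw [show MvPolynomial.eval (ent (bl ε (th ψ') (Wf S D hD H))) f = 0 from hR, zero_mul]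
      · exact semis_blocks ε τ hτ
      · intro t
        show bl ε (th ψ') (Wf S D hD H) (g t) = bl ε θ (Wf S D hD H0) (g t)
        unfold bl
        congr 1
        funext j
        rw [hθg j t]
        unfold Wf
        rw [Wr_Z S _ _ _ _ (hg t), Wr_Z S _ _ _ _ (hg t)]
      · intro γ x y
        show bl ε (th ψ') (Wf S D hD H) γ x y ∈ OL L
        refine blk_ent ε (OL L) _ (fun j x y => ?_) x y
        rw [Matrix.smul_apply, smul_eq_mul]
        refine (OL L).mul_mem (hψU _).1 ?_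
        have hW : Wf S D hD H j γ ∈ InR (OL L) := by
          refine Wr_mem S (D j) (hD j) _ (OL L) ?_ ?_ γ
          · intro i hi
            have hi0 : 0 < p i := Nat.pos_of_ne_zero hi
            have hdv : p i ∣ q * NN p := (dvd_NN p i hi).mul_left q
            have h1 : ∀ l, ((D j i : (Fin (m j) → ℂ)ˣ) : Fin (m j) → ℂ) l ^ p i = 1 := by
              intro l
              have := congrArg (fun u : (Fin (m j) → ℂ)ˣ => (u : Fin (m j) → ℂ) l) (hD j i)
              simpa using this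
            have h2 : ∀ l, (((D j i)⁻¹ : (Fin (m j) → ℂ)ˣ) : Fin (m j) → ℂ) l ^ p i = 1 := by
              intro l
              have h3 : (D j i)⁻¹ ^ p i = 1 := by rw [inv_pow, hD j i, inv_one]
              have := congrArg (fun u : (Fin (m j) → ℂ)ˣ => (u : Fin (m j) → ℂ) l) h3
              simpa using this
            refine ⟨fun x y => ?_, fun x y => ?_⟩
            · rw [dg_coe, Matrix.diagonal_apply]
              split_ifs
              · exact root_mem hL hi0 hdv (h1 x)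
              · exact (OL L).zero_mem
            · rw [← map_inv, dg_coe, Matrix.diagonal_apply]
              split_ifs
              · exact root_mem hL hi0 hdv (h2 x)
              · exact (OL L).zero_mem
          · intro i
            refine ⟨fun x y => ?_, fun x y => ?_⟩
            · exact intCast_mem (OL L) ((Hz (i, j) : Matrix (Fin (m j)) (Fin (m j)) ℤ) x y)
            · rw [su_inv_coe]
              have : (H (i, j))⁻¹ = SpecialLinearGroup.map (Int.castRingHom ℂ) (Hz (i, j))⁻¹ := by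
                rw [map_inv]
              rw [this]
              exact intCast_mem (OL L)
                ((((Hz (i, j))⁻¹ : SpecialLinearGroup (Fin (m j)) ℤ) :
                  Matrix (Fin (m j)) (Fin (m j)) ℤ) x y)
        exact hW.1 x y
    have := key H0
    exact (mul_eq_zero.mp this).resolve_right hdq0

end core

end P002
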