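import Mathlib
import Vale.Agent.Lib.P002.Main
import Vale.Agent.Lib.P002.Lft

open Matrix

namespace P002

/-- The number `q` works for blocks of sizes `m`. -/
def HQ (Γ : Type) [Group Γ] {n : ℕ} (m : Fin n → ℕ) {s : ℕ} (g : Fin s → Γ) (e q : ℕ) : Prop :=
  ∀ U : Subgroup ℂˣ, (∀ x : ℂˣ, x ^ q = 1 → x ∈ U) →
      (∃ u ∈ U, ∀ k : ℕ, 0 < k → u ^ k ≠ 1) →
      ∀ ψ : (Fin n → Abelianization Γ) →* ℂˣ, (∀ b ∈ Nsub m g, ψ b ^ e = 1) →
      ∀ (T : Finset (Fin n → Abelianization Γ)) (c : (Fin n → Abelianization Γ) → ℂ),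
        (∀ ψ' : (Fin n → Abelianization Γ) →* ℂˣ, (∀ b, ψ' b ∈ U) →
          (∀ b ∈ Nsub m g, ψ' b = ψ b) → ∑ b ∈ T, c b * ((ψ' b : ℂˣ) : ℂ) = 0) →
        ∑ b ∈ T, c b * ((ψ b : ℂˣ) : ℂ) = 0

theorem exists_HQ (Γ : Type) [Group Γ] [Group.FG Γ] (r : ℕ) {s : ℕ} (g : Fin s → Γ) (e : ℕ)
    (he : 0 < e) : ∃ q, 0 < q ∧ ∀ (n : ℕ) (m : Fin n → ℕ), n ≤ r → (∀ j, m j ≤ r) →
      HQ Γ m g e q := by
  classical
  have : Group.FG (Abelianization Γ) :=
    Group.fg_of_surjective (f := Abelianization.of) (fun x => QuotientGroup.mk_surjective x)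
  obtain ⟨q, hq, h⟩ := unif (Finset.univ : Finset (Σ n : Fin (r + 1), (Fin n → Fin (r + 1))))
    (fun a q => HQ Γ (fun j => ((a.2 j : Fin (r + 1)) : ℕ)) g e q)
    (fun a q q' hqq _ hP U hU1 hU2 ψ hψ T c hc =>
      hP U (fun x hx => hU1 x (by
        obtain ⟨t, rfl⟩ := hqq
        rw [pow_mul, hx, one_pow])) hU2 ψ hψ T c hc)
    (fun a _ => char_dense (Nsub (fun j => ((a.2 j : Fin (r + 1)) : ℕ)) g) e he)
  refine ⟨q, hq, fun n m hn hm => ?_⟩
  exact h ⟨⟨n, Nat.lt_succ_of_le hn⟩, fun j => ⟨m j, Nat.lt_succ_of_le (hm j)⟩⟩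
    (Finset.mem_univ _)

theorem blk_scalar_sub {r n : ℕ} {m : Fin n → ℕ} (ε : (Σ j, Fin (m j)) ≃ Fin r) (l : ℂ)
    (b : Fin n → ℂ) :
    Matrix.scalar (Fin r) l - blk ε (fun j => b j • (1 : Matrix (Fin (m j)) (Fin (m j)) ℂ))
      = blk ε (fun j => (l - b j) • (1 : Matrix (Fin (m j)) (Fin (m j)) ℂ)) := by
  have h1 : Matrix.scalar (Fin r) l
      = blk ε (fun j => l • (1 : Matrix (Fin (m j)) (Fin (m j)) ℂ)) := by
    have h2 : blk ε (fun j => l • (1 : Matrix (Fin (m j)) (Fin (m j)) ℂ))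
        = l • blk ε (fun j => (1 : Matrix (Fin (m j)) (Fin (m j)) ℂ)) := by
      unfold blk
      have h3 : (Matrix.blockDiagonal' fun j : Fin n =>
          l • (1 : Matrix (Fin (m j)) (Fin (m j)) ℂ)) = l • (Matrix.blockDiagonal' fun j : Fin n =>
          (1 : Matrix (Fin (m j)) (Fin (m j)) ℂ)) :=
        Matrix.blockDiagonal'_smul l _
      rw [h3]
      rfl
    rw [h2, blk_one]
    ext a b
    simp [Matrix.scalar_apply, Matrix.diagonal_apply, Matrix.one_apply]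
  rw [h1]
  unfold blk
  have h4 : (Matrix.blockDiagonal' fun j : Fin n =>
      (l - b j) • (1 : Matrix (Fin (m j)) (Fin (m j)) ℂ))
      = (Matrix.blockDiagonal' fun j : Fin n => l • (1 : Matrix (Fin (m j)) (Fin (m j)) ℂ))
        - (Matrix.blockDiagonal' fun j : Fin n =>
          b j • (1 : Matrix (Fin (m j)) (Fin (m j)) ℂ)) := by
    rw [← Matrix.blockDiagonal'_sub]
    congr 1
    funext j
    rw [sub_smul]
    rfl
  rw [h4]
  rfl

theorem final {Γ : Type} [Group Γ] [Group.FG Γ] (Z : Subgroup Γ) [Z.Normal]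
    (hZ : Z ≤ Subgroup.center Γ) (k : ℕ) (p : Fin k → ℕ)
    (E : Γ ⧸ Z ≃* Monoid.CoprodI (fun i : Fin k => Multiplicative (ZMod (p i))))
    {r : ℕ} (hr : 0 < r) {s : ℕ} (g : Fin s → Γ) (hg : ∀ t, g t ∈ Z)
    (c : Fin s → SpecialLinearGroup (Fin r) ℂ)
    (hc : ∀ t (l : ℂ), (c t : Matrix (Fin r) (Fin r) ℂ).charpoly.IsRoot l →
      ∃ q : ℕ, 0 < q ∧ l ^ q = 1) :
    ∃ L : IntermediateField ℚ ℂ, FiniteDimensional ℚ L ∧
      ∀ f : MvPolynomial (Γ × Fin r × Fin r) ℂ,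
        (∀ (a : SpecialLinearGroup (Fin r) ℂ) (ρ : Γ →* SpecialLinearGroup (Fin r) ℂ),
          MvPolynomial.eval (ent (fun γ =>
            ((a * ρ γ * a⁻¹ : SpecialLinearGroup (Fin r) ℂ) : Matrix (Fin r) (Fin r) ℂ))) f
          = MvPolynomial.eval (ent (fun γ => (ρ γ : Matrix (Fin r) (Fin r) ℂ))) f) →
        (∀ ρ : Γ →* SpecialLinearGroup (Fin r) ℂ,
          Semis (fun γ => (ρ γ : Matrix (Fin r) (Fin r) ℂ)) →
          (∀ t, IsConj (ρ (g t)) (c t)) →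
          (∀ γ i j, (ρ γ : Matrix (Fin r) (Fin r) ℂ) i j ∈ L ∧
            IsIntegral ℤ ((ρ γ : Matrix (Fin r) (Fin r) ℂ) i j)) →
          MvPolynomial.eval (ent (fun γ => (ρ γ : Matrix (Fin r) (Fin r) ℂ))) f = 0) →
        ∀ ρ : Γ →* SpecialLinearGroup (Fin r) ℂ,
          Semis (fun γ => (ρ γ : Matrix (Fin r) (Fin r) ℂ)) →
          (∀ t, IsConj (ρ (g t)) (c t)) →
          MvPolynomial.eval (ent (fun γ => (ρ γ : Matrix (Fin r) (Fin r) ℂ))) f = 0 := by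
  classical
  obtain ⟨x, hpw, hgen, hlift⟩ := exists_lifts Z k p E
  let S : Gens Γ Z k p := ⟨x, hpw, hgen, hlift⟩
  have hce : ∀ t, ∃ q, 0 < q ∧ ∀ l : ℂ, (c t : Matrix (Fin r) (Fin r) ℂ).charpoly.IsRoot l →
      l ^ q = 1 := by
    intro t
    obtain ⟨q, hq, h⟩ := unif (c t : Matrix (Fin r) (Fin r) ℂ).charpoly.roots.toFinset
      (fun l q => l ^ q = 1)
      (fun l q q' hqq _ h => by
        obtain ⟨u, rfl⟩ := hqq
        rw [pow_mul, h, one_pow])
      (fun l hl => hc t l (Polynomial.isRoot_of_mem_roots (Multiset.mem_toFinset.mp hl)))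
    refine ⟨q, hq, fun l hl => h l (Multiset.mem_toFinset.mpr ?_)⟩
    exact (Polynomial.mem_roots (Matrix.charpoly_monic _).ne_zero).mpr hl
  obtain ⟨e, he, hce'⟩ := unif (Finset.univ : Finset (Fin s))
    (fun t q => ∀ l : ℂ, (c t : Matrix (Fin r) (Fin r) ℂ).charpoly.IsRoot l → l ^ q = 1)
    (fun t q q' hqq _ h l hl => by
      obtain ⟨u, rfl⟩ := hqq
      rw [pow_mul, h l hl, one_pow])
    (fun t _ => hce t)
  obtain ⟨q, hq, hHQ⟩ := exists_HQ Γ r g (NN p * e) (Nat.mul_pos (NN_pos p) he)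
  obtain ⟨L, hLfd, hL, hu⟩ := exists_field (q * NN p) (Nat.mul_pos hq (NN_pos p))
  refine ⟨L, hLfd, fun f hinv hvan ρ hρ hbd => ?_⟩
  let σ : Γ →* Matrix (Fin r) (Fin r) ℂ := (SpecialLinearGroup.coeMonoidHom).comp ρ
  obtain ⟨n, m, ε, P, Q, τ, hPQ, hτ, hσ⟩ := exists_blocks σ hρ
  have hm : ∀ j, 0 < m j := fun j => (hτ j).1
  choose θ D hD h hτe using fun j => decomp S hZ (τ j) (hτ j)
  let H0 : ∀ q : Fin k × Fin n, SpecialLinearGroup (Fin (m q.2)) ℂ := fun q => h q.2 q.1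
  have hbl : ∀ γ, bl ε θ (Wf S D hD H0) γ = blk ε (fun j => τ j γ) := by
    intro γ
    unfold bl
    congr 1
    funext j
    exact (hτe j γ).symm
  obtain ⟨a, ha⟩ := exists_sl_conj hr P Q hPQ
  have hρa : ∀ γ, (ρ γ : Matrix (Fin r) (Fin r) ℂ) = (a : Matrix (Fin r) (Fin r) ℂ) *
      bl ε θ (Wf S D hD H0) γ *
        ((a⁻¹ : SpecialLinearGroup (Fin r) ℂ) : Matrix (Fin r) (Fin r) ℂ) := by
    intro γ
    rw [hbl γ, ← ha]
    exact hσ γ
  have hdet : ∀ γ, ∏ j, θ j γ ^ m j * dt (Wf S D hD H0 j γ) = 1 := by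
    intro γ
    have h1 := congrArg Matrix.det (hρa γ)
    rw [Matrix.det_mul, Matrix.det_mul, (ρ γ).det_coe, a.det_coe, (a⁻¹).det_coe, one_mul,
      mul_one, bl_det] at h1
    exact Units.ext h1.symm
  set R0 : Γ →* SpecialLinearGroup (Fin r) ℂ := rep0 ε θ (Wf S D hD H0) hdet with hR0
  have hR0c : ∀ γ, (R0 γ : Matrix (Fin r) (Fin r) ℂ) = bl ε θ (Wf S D hD H0) γ := fun γ => rfl
  have hρR : ∀ γ, ρ γ = a * R0 γ * a⁻¹ := by
    intro γ
    apply Subtype.ext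
    exact hρa γ
  have hconj : ∀ t, IsConj (R0 (g t)) (c t) := by
    intro t
    refine IsConj.trans ?_ (hbd t)
    rw [isConj_iff]
    exact ⟨a, (hρR (g t)).symm⟩
  have hcard : ∑ j, m j = r := by
    have := Fintype.card_congr ε
    simpa using this
  have hmr : ∀ j, m j ≤ r := fun j => by
    rw [← hcard]
    exact Finset.single_le_sum (fun i _ => Nat.zero_le (m i)) (Finset.mem_univ j)
  have hnr : n ≤ r := by
    calc n = ∑ _j : Fin n, 1 := by simp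
      _ ≤ ∑ j, m j := Finset.sum_le_sum fun j _ => hm j
      _ = r := hcard
  have heq : MvPolynomial.eval (ent (fun γ => (ρ γ : Matrix (Fin r) (Fin r) ℂ))) f
      = MvPolynomial.eval (ent (bl ε θ (Wf S D hD H0))) f := by
    have h1 := hinv a R0
    have h2 : (fun γ => (ρ γ : Matrix (Fin r) (Fin r) ℂ)) = fun γ =>
        ((a * R0 γ * a⁻¹ : SpecialLinearGroup (Fin r) ℂ) : Matrix (Fin r) (Fin r) ℂ) := by
      funext γ
      rw [← hρR γ]
    rw [h2, h1]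
    rfl
  rw [heq]
  refine core_density S ε D hD hm g hg e q hq (hHQ n m hnr hmr) L hL hu θ H0 ?_ hdet ?_ f ?_
  · intro j
    refine irred_smul (fun γ => ((θ j γ : ℂ))⁻¹) (fun γ => inv_ne_zero (θ j γ).ne_zero)
      (fun γ => ?_) (hτ j)
    show (Wr S (D j) (hD j) (h j) γ : Matrix (Fin (m j)) (Fin (m j)) ℂ) = _
    rw [hτe j γ, smul_smul, inv_mul_cancel₀ (θ j γ).ne_zero, one_smul]
  · intro j t
    have hroot : (c t : Matrix (Fin r) (Fin r) ℂ).charpoly.IsRoot (θ j (g t) : ℂ) := by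
      obtain ⟨u, hu⟩ := isConj_iff.mp (hconj t)
      rw [Polynomial.IsRoot, Matrix.eval_charpoly, ← hu]
      have h1 : Matrix.scalar (Fin r) (θ j (g t) : ℂ) -
          ((u * R0 (g t) * u⁻¹ : SpecialLinearGroup (Fin r) ℂ) : Matrix (Fin r) (Fin r) ℂ)
          = (u : Matrix (Fin r) (Fin r) ℂ) * (Matrix.scalar (Fin r) (θ j (g t) : ℂ) -
            (R0 (g t) : Matrix (Fin r) (Fin r) ℂ)) *
            ((u⁻¹ : SpecialLinearGroup (Fin r) ℂ) : Matrix (Fin r) (Fin r) ℂ) := by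
        have h2 : (u : Matrix (Fin r) (Fin r) ℂ) *
            ((u⁻¹ : SpecialLinearGroup (Fin r) ℂ) : Matrix (Fin r) (Fin r) ℂ) = 1 := by
          rw [← Matrix.SpecialLinearGroup.coe_mul, mul_inv_cancel,
            Matrix.SpecialLinearGroup.coe_one]
        rw [mul_sub, sub_mul, Matrix.SpecialLinearGroup.coe_mul,
          Matrix.SpecialLinearGroup.coe_mul]
        congr 1
        rw [(Matrix.scalar_commute (θ j (g t) : ℂ) (fun _ => Commute.all _ _)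
          (u : Matrix (Fin r) (Fin r) ℂ)).symm.eq, mul_assoc, h2, mul_one]
      rw [h1, Matrix.det_mul, Matrix.det_mul]
      have h3 : Matrix.scalar (Fin r) (θ j (g t) : ℂ) - (R0 (g t) : Matrix (Fin r) (Fin r) ℂ)
          = blk ε (fun j' => ((θ j (g t) : ℂ) - (θ j' (g t) : ℂ)) •
            (1 : Matrix (Fin (m j')) (Fin (m j')) ℂ)) := by
        rw [hR0c, ← blk_scalar_sub ε]
        congr 1
        unfold bl
        congr 1
        funext j'
        unfold Wf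
        rw [Wr_Z S _ _ _ _ (hg t)]
        rfl
      rw [h3, det_blk, Finset.prod_eq_zero (Finset.mem_univ j), mul_zero, zero_mul]
      rw [sub_self, zero_smul]
      have : Nonempty (Fin (m j)) := ⟨⟨0, hm j⟩⟩
      exact Matrix.det_zero
    have := hce' t (Finset.mem_univ t) _ hroot
    apply Units.ext
    rw [Units.val_pow_eq_pow_val, this]
    rfl
  · intro R hR hRg hRO
    refine hvan R hR (fun t => ?_) (fun γ i j => mem_OL.mp (hRO γ i j))
    have : R (g t) = R0 (g t) := Subtype.ext (hRg t)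
    rw [this]
    exact hconj t

end P002
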